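import Vale.Agent.P243.Area
import Mathlib.Analysis.Convex.Gauge
import Mathlib.Analysis.Convex.Cone.Extension
import Mathlib.MeasureTheory.Measure.Lebesgue.EqHaar
import Mathlib.MeasureTheory.Integral.Layercake

/-!
A convex body squeezed between two linear cubes, and the gauge it defines.
-/

namespace Vale.Agent.P243.Gap

open scoped InnerProductSpace

noncomputable section

/-- Coordinate space with the supremum norm. -/
abbrev V3 : Type := Fin 3 → ℝ

/-- The standing data: a compact convex body containing a linear unit cube and contained in its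
fifteen-fold dilate. -/
structure Body where
  K : Set R3
  T : R3 ≃L[ℝ] V3
  cpt : IsCompact K
  cvx : Convex ℝ K
  hin : ∀ x, ‖T x‖ ≤ 1 → x ∈ K
  hout : ∀ x ∈ K, ‖T x‖ ≤ 15

namespace Body

variable (S : Body)

/-- The gauge of the body. -/
def g (x : R3) : ℝ := gauge S.K x

theorem nhds_zero : S.K ∈ nhds (0 : R3) := by
  refine Filter.mem_of_superset ?_ (fun x hx => S.hin x hx)
  have : Continuous fun x => ‖S.T x‖ := S.T.continuous.norm
  exact this.continuousAt.preimage_mem_nhds (Iic_mem_nhds (by simp))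

theorem absorbent : Absorbent ℝ S.K := absorbent_nhds_zero S.nhds_zero

theorem g_nonneg (x : R3) : 0 ≤ S.g x := gauge_nonneg x

theorem g_add (x y : R3) : S.g (x + y) ≤ S.g x + S.g y := gauge_add_le S.cvx S.absorbent x y

theorem g_smul {a : ℝ} (ha : 0 ≤ a) (x : R3) : S.g (a • x) = a * S.g x := by
  simp [g, gauge_smul_of_nonneg ha]

theorem mem_iff (x : R3) : x ∈ S.K ↔ S.g x ≤ 1 := by
  rw [g, gauge_le_one_iff_mem_closure S.cvx S.nhds_zero, S.cpt.isClosed.closure_eq]

theorem g_le_norm (x : R3) : S.g x ≤ ‖S.T x‖ := by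
  rcases eq_or_ne x 0 with rfl | hx
  · simp [g]
  have hn : 0 < ‖S.T x‖ := norm_pos_iff.2 (by simpa using hx)
  have h : S.g (‖S.T x‖⁻¹ • x) ≤ 1 :=
    (S.mem_iff _).1 (S.hin _ (by simp [norm_smul, hn.ne']))
  rw [S.g_smul (inv_nonneg.2 hn.le), ← le_div_iff₀' (by positivity)] at h
  simpa using h

theorem norm_le_g (x : R3) : ‖S.T x‖ ≤ 15 * S.g x := by
  refine le_of_forall_pos_lt_add fun e he => ?_
  have ha : 0 < S.g x + e / 30 := by linarith [S.g_nonneg x]
  have hm : (S.g x + e / 30)⁻¹ • x ∈ S.K := by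
    rw [S.mem_iff, S.g_smul (inv_nonneg.2 ha.le), inv_mul_le_iff₀ ha]
    linarith
  have := S.hout _ hm
  rw [map_smul, norm_smul, Real.norm_eq_abs, abs_of_pos (inv_pos.2 ha), inv_mul_le_iff₀ ha] at this
  linarith

theorem g_sub (x y : R3) : S.g x ≤ S.g y + ‖S.T (x - y)‖ := by
  have h := S.g_add (x - y) y
  rw [sub_add_cancel] at h
  linarith [S.g_le_norm (x - y)]

theorem g_lip (x y : R3) : |S.g x - S.g y| ≤ ‖S.T (x - y)‖ := by
  rw [abs_le]
  have := S.g_sub y x
  rw [← norm_neg, ← map_neg, neg_sub] at this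
  constructor <;> linarith [S.g_sub x y]

theorem g_comb {a b : ℝ} (ha : 0 ≤ a) (hb : 0 ≤ b) (x y : R3) :
    S.g (a • x + b • y) ≤ a * S.g x + b * S.g y := by
  have := S.g_add (a • x) (b • y)
  rwa [S.g_smul ha, S.g_smul hb] at this

theorem g_continuous : Continuous S.g := by
  refine continuous_iff_continuousAt.2 fun x => ?_
  refine Metric.continuousAt_iff.2 fun e he => ?_
  have hc : Continuous fun y => ‖S.T (y - x)‖ :=
    (S.T.continuous.comp (continuous_id.sub continuous_const)).norm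
  obtain ⟨d, hd, h⟩ := Metric.continuousAt_iff.1 (hc.continuousAt (x := x)) e he
  refine ⟨d, hd, fun {y} hy => ?_⟩
  have := h hy
  simp [Real.dist_eq] at this ⊢
  exact lt_of_le_of_lt (S.g_lip y x) (by simpa using this)

/-- Second difference of the gauge. -/
def sd (p v : R3) : ℝ := S.g (p + v) + S.g (p - v) - 2 * S.g p

theorem sd_nonneg (p v : R3) : 0 ≤ S.sd p v := by
  have h := S.g_add (p + v) (p - v)
  have : p + v + (p - v) = (2 : ℝ) • p := by module
  rw [this, S.g_smul (by norm_num)] at h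
  simp only [sd]; linarith

theorem sd_mono (p v : R3) {a b : ℝ} (hab : |a| ≤ b) : S.sd p (a • v) ≤ S.sd p (b • v) := by
  rcases eq_or_lt_of_le (le_trans (abs_nonneg a) hab) with hb | hb
  · have : a = 0 := abs_eq_zero.1 (le_antisymm (hb ▸ hab) (abs_nonneg a))
    simp [this, ← hb]
  have ha := abs_le.1 hab
  set s := (b + a) / (2 * b) with hs
  have hs0 : 0 ≤ s := div_nonneg (by linarith) (by linarith)
  have hs1 : 0 ≤ 1 - s := by
    rw [hs, sub_nonneg, div_le_one (by linarith)]; linarith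
  have e2 : s * b - (1 - s) * b = a := by rw [hs]; field_simp; ring
  have h1 := S.g_comb hs0 hs1 (p + b • v) (p - b • v)
  have h2 := S.g_comb hs1 hs0 (p + b • v) (p - b • v)
  have i1 : s • (p + b • v) + (1 - s) • (p - b • v) = p + a • v := by rw [← e2]; module
  have i2 : (1 - s) • (p + b • v) + s • (p - b • v) = p - a • v := by rw [← e2]; module
  rw [i1] at h1; rw [i2] at h2
  simp only [sd]; nlinarith

/-- The vectors of the linear cube. -/
def e (i : Fin 3) : R3 := S.T.symm (Pi.single i 1)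

theorem sum_e (v : R3) : v = ∑ i, (S.T v i) • S.e i := by
  apply S.T.injective
  simp only [e, map_sum, map_smul, ContinuousLinearEquiv.apply_symm_apply]
  funext j; simp [Pi.single_apply]

/-- A second difference in any direction is dominated by the coordinate ones. -/
theorem exists_coord_kink (p v : R3) (t c : ℝ) (ht : 0 ≤ t) (hv : ‖S.T v‖ ≤ 30)
    (h : c ≤ S.sd p (t • v)) : ∃ i, c ≤ S.sd p ((90 * t) • S.e i) := by
  by_contra hne
  simp only [not_exists, not_le] at hne
  have hco : ∀ i, |3 * t * S.T v i| ≤ 90 * t := fun i => by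
    have : |S.T v i| ≤ 30 := (norm_le_pi_norm (S.T v) i).trans hv
    rw [abs_mul, abs_of_nonneg (by linarith : (0:ℝ) ≤ 3 * t)]
    nlinarith
  have key : S.sd p (t • v) ≤ 1 / 3 * ∑ i, S.sd p ((3 * t * S.T v i) • S.e i) := by
    have hd := S.sum_e v
    rw [Fin.sum_univ_three] at hd
    set a := fun i => (3 * t * S.T v i) • S.e i with ha
    have e3 : (3:ℝ) • (t • v) = a 0 + a 1 + a 2 := by
      simp only [ha]; conv_lhs => rw [hd]
      module
    have h1 : S.g (p + t • v) ≤ 1 / 3 * (S.g (p + a 0) + S.g (p + a 1) + S.g (p + a 2)) := by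
      have := (S.g_add _ _).trans (add_le_add_left (S.g_add (p + a 0) (p + a 1)) (S.g (p + a 2)))
      have e4 : p + a 0 + (p + a 1) + (p + a 2) = (3:ℝ) • (p + t • v) := by
        rw [smul_add, e3]; module
      rw [e4, S.g_smul (by norm_num)] at this
      linarith
    have h2 : S.g (p - t • v) ≤ 1 / 3 * (S.g (p - a 0) + S.g (p - a 1) + S.g (p - a 2)) := by
      have := (S.g_add _ _).trans (add_le_add_left (S.g_add (p - a 0) (p - a 1)) (S.g (p - a 2)))
      have e4 : p - a 0 + (p - a 1) + (p - a 2) = (3:ℝ) • (p - t • v) := by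
        rw [smul_sub, e3]; module
      rw [e4, S.g_smul (by norm_num)] at this
      linarith
    simp only [sd, Fin.sum_univ_three, ha] at *
    linarith
  rw [Fin.sum_univ_three] at key
  have h0 := (S.sd_mono p (S.e 0) (hco 0)).trans_lt (hne 0)
  have h1 := (S.sd_mono p (S.e 1) (hco 1)).trans_lt (hne 1)
  have h2 := (S.sd_mono p (S.e 2) (hco 2)).trans_lt (hne 2)
  linarith

/-- A supporting functional vanishing on `u`, together with a contact point. -/
theorem exists_support {u w : R3} (_hu : ‖u‖ = 1) (hw : w ≠ 0) (huw : ⟪u, w⟫_ℝ = 0) :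
    ∃ (f : R3 →ₗ[ℝ] ℝ) (Y : R3) (a s : ℝ), f u = 0 ∧ (∀ x, f x ≤ S.g x) ∧ f Y = 1 ∧
      Y ∈ S.K ∧ 0 < a ∧ Y = a • w + s • u ∧ 0 < f w := by
  set W : Submodule ℝ R3 := Submodule.span ℝ {w, u} with hW
  have hcl : IsClosed (W : Set R3) := Submodule.closed_of_finiteDimensional W
  have hne : (S.K ∩ W).Nonempty := ⟨0, mem_of_mem_nhds S.nhds_zero, W.zero_mem⟩
  obtain ⟨Y, ⟨hYK, hYW⟩, hmax⟩ := (S.cpt.inter_right hcl).exists_isMaxOn hne
    ((continuous_const.inner continuous_id : Continuous fun x : R3 => ⟪w, x⟫_ℝ).continuousOn)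
  have hwW : w ∈ W := Submodule.subset_span (by simp)
  have huW : u ∈ W := Submodule.subset_span (by simp)
  have hww : 0 < ⟪w, w⟫_ℝ := real_inner_self_pos.2 hw
  set M := ⟪w, Y⟫_ℝ with hM
  have hMpos : 0 < M := by
    set b := 1 / (‖S.T w‖ + 1) with hb
    have hb0 : 0 < b := by positivity
    have hbw : b • w ∈ S.K := S.hin _ (by
      rw [map_smul, norm_smul, Real.norm_eq_abs, abs_of_pos hb0, hb, one_div_mul_eq_div,
        div_le_one (by positivity)]
      linarith)
    have : ⟪w, b • w⟫_ℝ ≤ M := hmax ⟨hbw, W.smul_mem b hwW⟩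
    rw [real_inner_smul_right] at this
    nlinarith
  let f0 : R3 →ₗ.[ℝ] ℝ :=
    { domain := W
      toFun := (M⁻¹ • (innerₛₗ ℝ w)).comp W.subtype }
  have hdom : ∀ x : f0.domain, f0 x ≤ S.g x := by
    rintro ⟨x, hx⟩
    change M⁻¹ * ⟪w, x⟫_ℝ ≤ S.g x
    refine le_of_forall_pos_lt_add fun d hd => ?_
    have hc : 0 < S.g x + d / 2 := by linarith [S.g_nonneg x]
    have hm : (S.g x + d / 2)⁻¹ • x ∈ S.K := by
      rw [S.mem_iff, S.g_smul (inv_nonneg.2 hc.le), inv_mul_le_iff₀ hc]; linarith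
    have : ⟪w, (S.g x + d / 2)⁻¹ • x⟫_ℝ ≤ M := hmax ⟨hm, W.smul_mem _ hx⟩
    rw [real_inner_smul_right, inv_mul_le_iff₀ hc] at this
    have : M⁻¹ * ⟪w, x⟫_ℝ ≤ S.g x + d / 2 := by
      rw [inv_mul_le_iff₀ hMpos]; linarith
    linarith
  obtain ⟨f, hf, hfle⟩ := exists_extension_of_le_sublinear f0 S.g
    (fun c hc x => S.g_smul hc.le x) S.g_add hdom
  have hval : ∀ x ∈ W, f x = M⁻¹ * ⟪w, x⟫_ℝ := fun x hx => hf ⟨x, hx⟩
  obtain ⟨a, s, has⟩ := Submodule.mem_span_pair.1 hYW
  have hi : ⟪w, u⟫_ℝ = 0 := by rw [real_inner_comm]; exact huw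
  refine ⟨f, Y, a, s, by rw [hval u huW, hi, mul_zero], hfle, ?_, hYK, ?_, has.symm, ?_⟩
  · rw [hval Y hYW, ← hM, inv_mul_cancel₀ hMpos.ne']
  · have : M = a * ⟪w, w⟫_ℝ := by
      rw [hM, ← has, inner_add_right, real_inner_smul_right, real_inner_smul_right, hi]; ring
    by_contra h
    nlinarith
  · rw [hval w hwW]; positivity

/-- A segment whose slack past every supporting contact is small has a kink at an endpoint. -/
theorem kink_at_end {u : R3} (hu : ‖u‖ = 1) {w p q : R3} {τ β t err θ : ℝ}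
    (hwu : ⟪u, w⟫_ℝ = 0) (hp : p = w + τ • u) (hq : q = w + β • u)
    (ht : 0 < t) (ht1 : t < 1) (herr : err ≤ t / 8) (hθ : θ = t / 8)
    (hpK : p ∈ S.K) (hqK : q ∈ S.K)
    (hpout : ∀ s : ℝ, 0 ≤ s → 1 ≤ S.g (p + s • u))
    (hqout : ∀ s : ℝ, 0 ≤ s → 1 ≤ S.g (q - s • u))
    (hslack : ∀ (f : R3 →ₗ[ℝ] ℝ) (Y : R3), f u = 0 → (∀ x, f x ≤ S.g x) → f p ≤ 1 - θ →
      f Y = 1 → Y ∈ S.K →
      1 - err ≤ S.g (p + t • (Y - p)) ∧ 1 - err ≤ S.g (q + t • (Y - q))) :
    ∃ x ∈ ({p, q} : Set R3), ∃ i, t / 2 ≤ S.sd x ((90 * t) • S.e i) := by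
  have hp1 : S.g p = 1 := le_antisymm ((S.mem_iff p).1 hpK) (by simpa using hpout 0 le_rfl)
  have hq1 : S.g q = 1 := le_antisymm ((S.mem_iff q).1 hqK) (by simpa using hqout 0 le_rfl)
  have hnormK : ∀ x ∈ S.K, ∀ y ∈ S.K, ‖S.T (x - y)‖ ≤ 30 := fun x hx y hy => by
    rw [map_sub]
    linarith [norm_sub_le (S.T x) (S.T y), S.hout x hx, S.hout y hy]
  suffices h : (∃ Y ∈ S.K, t / 2 ≤ S.sd p (t • (Y - p))) ∨
      (∃ Y ∈ S.K, t / 2 ≤ S.sd q (t • (Y - q))) by
    rcases h with ⟨Y, hY, h⟩ | ⟨Y, hY, h⟩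
    · exact ⟨p, by simp, S.exists_coord_kink p _ t _ ht.le (hnormK Y hY p hpK) h⟩
    · exact ⟨q, by simp, S.exists_coord_kink q _ t _ ht.le (hnormK Y hY q hqK) h⟩
  by_contra hne
  simp only [not_or, not_exists, not_and, not_le] at hne
  obtain ⟨hnp, hnq⟩ := hne
  have hfp : ∀ (f : R3 →ₗ[ℝ] ℝ), f u = 0 → ∀ r : ℝ, f (w + r • u) = f p := fun f hf r => by
    simp [hp, map_add, map_smul, hf]
  by_cases hdeep : ∃ r : ℝ, S.g (w + r • u) ≤ 1 - θ
  · obtain ⟨r, hr⟩ := hdeep
    obtain ⟨c, hc1⟩ : ∃ c : R3, ⟪u, c⟫_ℝ = 0 ∧ c ≠ 0 := by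
      have hfin : Module.finrank ℝ (Submodule.span ℝ {u})ᗮ ≠ 0 := by
        have := (Submodule.span ℝ {u}).finrank_add_finrank_orthogonal
        rw [finrank_span_singleton (by rintro rfl; simp at hu), finrank_euclideanSpace_fin] at this
        omega
      have : (Submodule.span ℝ {u})ᗮ ≠ ⊥ := fun h => hfin (by rw [h, finrank_bot])
      obtain ⟨c, hc, hc0⟩ := Submodule.exists_mem_ne_zero_of_ne_bot this
      exact ⟨c, Submodule.inner_right_of_mem_orthogonal (Submodule.mem_span_singleton_self u) hc,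
        hc0⟩
    obtain ⟨f, Y, a, s, hfu, hfle, hfY, hYK, ha, hY, -⟩ := S.exists_support hu hc1.2 hc1.1
    obtain ⟨f', Y', a', s', hfu', hfle', hfY', hYK', ha', hY', -⟩ :=
      S.exists_support (w := -c) hu (neg_ne_zero.2 hc1.2) (by simp [hc1.1])
    have hd : ∀ f : R3 →ₗ[ℝ] ℝ, f u = 0 → (∀ x, f x ≤ S.g x) → f p ≤ 1 - θ := fun f hf hle => by
      rw [← hfp f hf r]; exact (hle _).trans hr
    obtain ⟨sp, sq⟩ := hslack f Y hfu hfle (hd f hfu hfle) hfY hYK
    obtain ⟨sp', sq'⟩ := hslack f' Y' hfu' hfle' (hd f' hfu' hfle') hfY' hYK'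
    set l := a' / (a + a') with hl
    have hl0 : 0 ≤ l := by positivity
    have hl1 : 0 ≤ 1 - l := by
      rw [hl, sub_nonneg, div_le_one (by positivity)]; linarith
    set σ := l * s + (1 - l) * s' with hσ
    have hla : l * a = (1 - l) * a' := by rw [hl]; field_simp; ring
    have hcomb : l • Y + (1 - l) • Y' = σ • u := by
      have : l • Y + (1 - l) • Y' = (l * a - (1 - l) * a') • c + σ • u := by
        rw [hY, hY', hσ]; module
      rw [this, hla, sub_self, zero_smul, zero_add]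
    have main : ∀ x : R3, S.g x = 1 → 1 - err ≤ S.g (x + t • (Y - x)) →
        1 - err ≤ S.g (x + t • (Y' - x)) → S.sd x (t • (Y - x)) < t / 2 →
        S.sd x (t • (Y' - x)) < t / 2 → S.g ((1 + t) • x - (t * σ) • u) < 1 + t := by
      intro x hx a1 a2 b1 b2
      have h := S.g_comb hl0 hl1 (x - t • (Y - x)) (x - t • (Y' - x))
      have e : l • (x - t • (Y - x)) + (1 - l) • (x - t • (Y' - x)) =
          (1 + t) • x - (t * σ) • u := by
        rw [mul_smul, ← hcomb]; module
      rw [e] at h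
      simp only [sd, hx] at b1 b2
      nlinarith
    rcases le_total σ 0 with hs | hs
    · have h := main p hp1 sp sp' (hnp Y hYK) (hnp Y' hYK')
      have e : (1 + t) • p - (t * σ) • u = (1 + t) • (p + (-(t * σ) / (1 + t)) • u) := by
        rw [smul_add, smul_smul, mul_div_cancel₀ _ (by linarith : (1 + t) ≠ 0)]; module
      rw [e, S.g_smul (by linarith)] at h
      have := hpout (-(t * σ) / (1 + t)) (div_nonneg (by nlinarith) (by linarith))
      nlinarith
    · have h := main q hq1 sq sq' (hnq Y hYK) (hnq Y' hYK')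
      have e : (1 + t) • q - (t * σ) • u = (1 + t) • (q - ((t * σ) / (1 + t)) • u) := by
        rw [smul_sub, smul_smul, mul_div_cancel₀ _ (by linarith : (1 + t) ≠ 0)]
      rw [e, S.g_smul (by linarith)] at h
      have := hqout ((t * σ) / (1 + t)) (by positivity)
      nlinarith
  · simp only [not_exists, not_le] at hdeep
    have hw0 : w ≠ 0 := fun h0 => by
      have := hdeep 0
      simp [h0, g] at this
      linarith
    obtain ⟨f, Y, a, s, hfu, hfle, hfY, hYK, ha, hY, hfw⟩ :=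
      S.exists_support (w := -w) hu (neg_ne_zero.2 hw0) (by simp [hwu])
    have hfp0 : f p ≤ 1 - θ := by
      rw [map_neg, neg_pos] at hfw
      rw [← hfp f hfu 0]; simp only [zero_smul, add_zero]; linarith
    obtain ⟨sp, -⟩ := hslack f Y hfu hfle hfp0 hfY hYK
    have h2 := hnp Y hYK
    set K := 1 + t + t * a with hK
    have hK0 : 0 < K := by positivity
    have e : p - t • (Y - p) = K • (w + (((1 + t) * τ - t * s) / K) • u) := by
      rw [smul_add, smul_smul, mul_div_cancel₀ _ hK0.ne', hp, hY, hK]; module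
    have hbig : (1 + t) * (1 - θ) ≤ S.g (p - t • (Y - p)) := by
      rw [e, S.g_smul hK0.le]
      have := hdeep (((1 + t) * τ - t * s) / K)
      exact mul_le_mul (by rw [hK]; nlinarith) this.le (by linarith) hK0.le
    simp only [sd, hp1] at h2
    have : (1 + t) * (1 - θ) ≥ 1 + 3 * t / 4 := by subst hθ; nlinarith only [ht, ht1]
    linarith

end Body

end

end Vale.Agent.P243.Gap
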