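import Vale.Agent.P243.Gap.Kink
import Mathlib.MeasureTheory.Integral.IntervalIntegral.FundThmCalculus
import Mathlib.Analysis.Calculus.Deriv.Mul
import Mathlib.Analysis.Calculus.Deriv.Pow

/-!
Fibres in one direction: nearly extremal chords end at kinks, so a cylinder that is
nearly extremal puts mass into the kink shell.
-/

namespace Vale.Agent.P243.Gap

open MeasureTheory Set
open scoped ENNReal InnerProductSpace

noncomputable section

/-- The orthogonal frame embedding of the plane. -/
def iota (c : OrthonormalBasis (Fin 3) ℝ R3) : ℝ × ℝ →ₗ[ℝ] R3 where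
  toFun p := p.2 • c 0 + p.1 • c 2
  map_add' p q := by simp only [Prod.snd_add, Prod.fst_add]; module
  map_smul' a p := by simp only [Prod.smul_snd, Prod.smul_fst, smul_eq_mul, RingHom.id_apply]; module

/-- The coordinates of the projection to the plane. -/
def pi2 (c : OrthonormalBasis (Fin 3) ℝ R3) (x : R3) : ℝ × ℝ := (⟪c 2, x⟫_ℝ, ⟪c 0, x⟫_ℝ)

theorem iota_pi2 (c : OrthonormalBasis (Fin 3) ℝ R3) (x : R3) :
    iota c (pi2 c x) + ⟪c 1, x⟫_ℝ • c 1 = x := by
  conv_rhs => rw [← c.sum_repr' x, Fin.sum_univ_three]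
  simp only [iota, pi2, LinearMap.coe_mk, AddHom.coe_mk]
  abel

theorem inner_iota (c : OrthonormalBasis (Fin 3) ℝ R3) (p : ℝ × ℝ) :
    ⟪c 1, iota c p⟫_ℝ = 0 := by
  have ho := orthonormal_iff_ite.1 c.orthonormal
  simp [iota, inner_add_right, real_inner_smul_right, ho]

theorem pi2_iota (c : OrthonormalBasis (Fin 3) ℝ R3) (p : ℝ × ℝ) (s : ℝ) :
    pi2 c (iota c p + s • c 1) = p := by
  have ho := orthonormal_iff_ite.1 c.orthonormal
  simp [pi2, iota, inner_add_right, real_inner_smul_right, ho]

theorem continuous_iota (c : OrthonormalBasis (Fin 3) ℝ R3) : Continuous (iota c) :=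
  (iota c).continuous_of_finiteDimensional

/-- The frame as a map from plane times line to space. -/
def line (c : OrthonormalBasis (Fin 3) ℝ R3) (q : (ℝ × ℝ) × ℝ) : R3 := iota c q.1 + q.2 • c 1

theorem continuous_line (c : OrthonormalBasis (Fin 3) ℝ R3) : Continuous (line c) :=
  ((continuous_iota c).comp continuous_fst).add (continuous_snd.smul continuous_const)

theorem line_preserving (c : OrthonormalBasis (Fin 3) ℝ R3) :
    MeasurePreserving (line c) volume volume := by
  let e1 : ℝ × (Fin 2 → ℝ) ≃ᵐ (Fin 3 → ℝ) :=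
    (MeasurableEquiv.piFinSuccAbove (fun _ => ℝ) 2).symm
  let e2 : ℝ × ℝ ≃ᵐ (Fin 2 → ℝ) := (MeasurableEquiv.finTwoArrow).symm
  let ψ : ℝ × (ℝ × ℝ) → R3 := fun p => c.repr.symm (WithLp.toLp 2 (e1 (p.1, e2 p.2)))
  have h1 : MeasurePreserving e1 volume volume :=
    (volume_preserving_piFinSuccAbove (fun _ : Fin 3 => ℝ) 2).symm _
  have h2 : MeasurePreserving e2 volume volume := (volume_preserving_finTwoArrow ℝ).symm _
  have h3 : MeasurePreserving (fun p : ℝ × (ℝ × ℝ) => (p.1, e2 p.2)) volume volume :=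
    (MeasurePreserving.id volume).prod h2
  have hψ : MeasurePreserving ψ volume volume :=
    (c.measurePreserving_repr_symm.comp
      ((PiLp.volume_preserving_toLp (ι := Fin 3)).comp (h1.comp h3)))
  have heq : line c = ψ ∘ MeasurableEquiv.prodAssoc := by
    funext ⟨⟨z, r⟩, s⟩
    have : c.repr.symm (WithLp.toLp 2 (e1 (z, e2 (r, s)))) =
        ∑ i, (e1 (z, e2 (r, s))) i • c i := by
      rw [← c.sum_repr_symm]
    simp only [ψ, Function.comp_apply, MeasurableEquiv.prodAssoc, MeasurableEquiv.coe_mk,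
      Equiv.prodAssoc_apply, this, Fin.sum_univ_three]
    simp only [line, iota, LinearMap.coe_mk, AddHom.coe_mk]
    rw [add_right_comm]
    congr 1
  rw [heq]
  exact hψ.comp volume_preserving_prodAssoc

theorem volume_slices (c : OrthonormalBasis (Fin 3) ℝ R3) {X : Set R3} (hX : MeasurableSet X) :
    volume X = ∫⁻ p : ℝ × ℝ, volume {s : ℝ | iota c p + s • c 1 ∈ X} := by
  rw [← (line_preserving c).measure_preimage hX.nullMeasurableSet, Measure.volume_eq_prod,
    Measure.prod_apply ((continuous_line c).measurable hX)]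
  rfl

theorem planeArea_eq (c : OrthonormalBasis (Fin 3) ℝ R3) {S : Set R3} (hS : MeasurableSet S) :
    planeArea (c 1) S = volume ((iota c) ⁻¹' S) := by
  rw [planeArea_eq_lintegral c hS, Measure.volume_eq_prod,
    Measure.prod_apply ((continuous_iota c).measurable hS)]
  rfl

/-! The constants. -/

/-- The scale. -/
def tc : ℝ := 1 / 10 ^ 13
/-- Allowed excess of a chord. -/
def xi : ℝ := 1 / 10 ^ 16
/-- Width of a level interval. -/
def dl : ℝ := 1 / (4 * 10 ^ 16)
/-- Size of a small homothetic copy. -/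
def ep : ℝ := 1 / 10 ^ 33
/-- Defect threshold. -/
def eta : ℝ := 1 / 10 ^ 84

namespace Body

variable (S : Body) (c : OrthonormalBasis (Fin 3) ℝ R3)

/-- A fibre. -/
def fib (p : ℝ × ℝ) : Set ℝ := {s | iota c p + s • c 1 ∈ S.K}

/-- The shadow. -/
def shadow : Set (ℝ × ℝ) := pi2 c '' S.K

/-- Chord length. -/
def h (p : ℝ × ℝ) : ℝ := volume.real (S.fib c p)

theorem isCompact_shadow : IsCompact (S.shadow c) :=
  S.cpt.image ((continuous_const.inner continuous_id).prodMk
    (continuous_const.inner continuous_id))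

theorem mem_shadow {p : ℝ × ℝ} : p ∈ S.shadow c ↔ (S.fib c p).Nonempty := by
  constructor
  · rintro ⟨x, hx, rfl⟩
    refine ⟨⟪c 1, x⟫_ℝ, ?_⟩
    show iota c (pi2 c x) + ⟪c 1, x⟫_ℝ • c 1 ∈ S.K
    rwa [iota_pi2]
  · rintro ⟨s, hs⟩
    exact ⟨_, hs, pi2_iota c p s⟩

theorem norm_u_pos : 0 < ‖S.T (c 1)‖ := norm_pos_iff.2 (by
  simpa using c.orthonormal.ne_zero 1)

theorem fib_eq_Icc {p : ℝ × ℝ} (hp : p ∈ S.shadow c) :
    ∃ β τ, β ≤ τ ∧ S.fib c p = Icc β τ ∧ S.h c p = τ - β ∧ (τ - β) * ‖S.T (c 1)‖ ≤ 30 := by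
  have hne := (S.mem_shadow c).1 hp
  have hcl : IsClosed (S.fib c p) :=
    S.cpt.isClosed.preimage (continuous_const.add (continuous_id.smul continuous_const))
  have hbd : ∀ a ∈ S.fib c p, ∀ b ∈ S.fib c p, |a - b| * ‖S.T (c 1)‖ ≤ 30 := by
    intro a ha b hb
    have e : S.T (iota c p + a • c 1) - S.T (iota c p + b • c 1) = (a - b) • S.T (c 1) := by
      simp only [map_add, map_smul]; module
    have h1 := norm_sub_le (S.T (iota c p + a • c 1)) (S.T (iota c p + b • c 1))
    rw [e, norm_smul, Real.norm_eq_abs] at h1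
    linarith [S.hout _ ha, S.hout _ hb]
  obtain ⟨a0, ha0⟩ := hne
  have hbdd : Bornology.IsBounded (S.fib c p) := by
    refine (Metric.isBounded_iff_subset_closedBall a0).2 ⟨30 / ‖S.T (c 1)‖, fun a ha => ?_⟩
    rw [Metric.mem_closedBall, Real.dist_eq, le_div_iff₀ (S.norm_u_pos c)]
    exact hbd a ha a0 ha0
  have hconv : Convex ℝ (S.fib c p) := by
    intro a ha b hb s t hs ht hst
    show iota c p + (s • a + t • b) • c 1 ∈ S.K
    have : iota c p + (s • a + t • b) • c 1 =
        s • (iota c p + a • c 1) + t • (iota c p + b • c 1) := by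
      simp only [smul_eq_mul]
      rw [show iota c p + (s * a + t * b) • c 1 = (s + t) • iota c p + (s * a + t * b) • c 1 by
        rw [hst, one_smul]]
      module
    rw [this]
    exact S.cvx ha hb hs ht hst
  have hI := eq_Icc_of_connected_compact (hconv.isConnected ⟨a0, ha0⟩)
    (Metric.isCompact_of_isClosed_isBounded hcl hbdd)
  set β := sInf (S.fib c p)
  set τ := sSup (S.fib c p)
  have hle : β ≤ τ := by
    have := (hI ▸ ha0 : a0 ∈ Icc β τ); exact this.1.trans this.2
  refine ⟨β, τ, hle, hI, by rw [h, hI, Real.volume_real_Icc_of_le hle], ?_⟩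
  have := hbd τ (hI ▸ right_mem_Icc.2 hle) β (hI ▸ left_mem_Icc.2 hle)
  rwa [abs_of_nonneg (by linarith)] at this

theorem h_nonneg (p : ℝ × ℝ) : 0 ≤ S.h c p := measureReal_nonneg

theorem h_eq_zero {p : ℝ × ℝ} (hp : p ∉ S.shadow c) : S.h c p = 0 := by
  rw [S.mem_shadow c, not_nonempty_iff_eq_empty] at hp
  simp [h, hp]

theorem h_zero_ge : 2 ≤ S.h c 0 * ‖S.T (c 1)‖ := by
  have hn := S.norm_u_pos c
  set b := 1 / ‖S.T (c 1)‖ with hb
  have hmem : ∀ s : ℝ, |s| ≤ b → s ∈ S.fib c 0 := fun s hs => by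
    refine S.hin _ ?_
    rw [map_zero, zero_add, map_smul, norm_smul, Real.norm_eq_abs]
    rwa [hb, le_div_iff₀ hn] at hs
  have hb0 : 0 < b := by positivity
  have h0 : (0 : ℝ × ℝ) ∈ S.shadow c := (S.mem_shadow c).2 ⟨0, hmem 0 (by simpa using hb0.le)⟩
  obtain ⟨β, τ, -, hI, hh, -⟩ := S.fib_eq_Icc c h0
  have h1 := hmem b (abs_of_pos hb0).le
  have h2 := hmem (-b) (by rw [abs_neg, abs_of_pos hb0])
  rw [hI] at h1 h2
  have : 2 * b ≤ S.h c 0 := by rw [hh]; linarith [h1.2, h2.1]
  calc (2:ℝ) = 2 * b * ‖S.T (c 1)‖ := by rw [hb]; field_simp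
    _ ≤ _ := mul_le_mul_of_nonneg_right this hn.le

theorem combine {a b : ℝ × ℝ} (ha : a ∈ S.shadow c) (hb : b ∈ S.shadow c) {l : ℝ}
    (hl : 0 ≤ l) (hl1 : l ≤ 1) : (1 - l) • a + l • b ∈ S.shadow c ∧
      (1 - l) * S.h c a + l * S.h c b ≤ S.h c ((1 - l) • a + l • b) := by
  obtain ⟨β, τ, hle, hI, hh, -⟩ := S.fib_eq_Icc c ha
  obtain ⟨β', τ', hle', hI', hh', -⟩ := S.fib_eq_Icc c hb
  have key : ∀ x ∈ S.fib c a, ∀ y ∈ S.fib c b,
      (1 - l) * x + l * y ∈ S.fib c ((1 - l) • a + l • b) := by
    intro x hx y hy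
    show iota c ((1 - l) • a + l • b) + ((1 - l) * x + l * y) • c 1 ∈ S.K
    have : iota c ((1 - l) • a + l • b) + ((1 - l) * x + l * y) • c 1 =
        (1 - l) • (iota c a + x • c 1) + l • (iota c b + y • c 1) := by
      simp only [map_add, map_smul]; module
    rw [this]
    exact S.cvx hx hy (by linarith) hl (by ring)
  have k1 := key β (hI ▸ left_mem_Icc.2 hle) β' (hI' ▸ left_mem_Icc.2 hle')
  have k2 := key τ (hI ▸ right_mem_Icc.2 hle) τ' (hI' ▸ right_mem_Icc.2 hle')
  have hm := (S.mem_shadow c).2 ⟨_, k1⟩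
  obtain ⟨β'', τ'', -, hI'', hh'', -⟩ := S.fib_eq_Icc c hm
  rw [hI''] at k1 k2
  refine ⟨hm, ?_⟩
  rw [hh, hh', hh'']
  nlinarith [k1.1, k2.2]

theorem measurable_h : Measurable (S.h c) :=
  ((measurable_measure_prodMk_left
    ((continuous_line c).measurable S.cpt.isClosed.measurableSet)).ennreal_toReal : _)

theorem fib_finite (p : ℝ × ℝ) : volume (S.fib c p) ≠ ⊤ := by
  by_cases hp : p ∈ S.shadow c
  · obtain ⟨β, τ, -, hI, -⟩ := S.fib_eq_Icc c hp
    rw [hI]; exact measure_Icc_lt_top.ne
  · rw [S.mem_shadow c, not_nonempty_iff_eq_empty] at hp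
    simp [hp]

theorem volume_K_eq : volume S.K = ∫⁻ p, ENNReal.ofReal (S.h c p) := by
  rw [volume_slices c S.cpt.isClosed.measurableSet]
  refine lintegral_congr fun p => ?_
  exact (ENNReal.ofReal_toReal (S.fib_finite c p)).symm

/-- Layer-cake lower bound from a chord, improved by a set where the chord is longer. -/
theorem volume_ge {x0 : ℝ × ℝ} (hx0 : x0 ∈ S.shadow c) (R : Set (ℝ × ℝ)) (hR : MeasurableSet R)
    (hRf : volume R ≠ ⊤) (lo hi : ℝ) (hlo : 0 ≤ lo) (hlh : lo ≤ hi) (hRh : ∀ q ∈ R, hi ≤ S.h c q)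
    (hdis : ∀ l ∈ Ico (0:ℝ) 1, (1 - l) * S.h c x0 ∈ Ioo lo hi →
      ∀ q ∈ R, q ∉ AffineMap.homothety x0 l '' S.shadow c) :
    volume.real (S.shadow c) * S.h c x0 / 3 + (hi - lo) * volume.real R ≤ volume.real S.K := by
  have : (volume : Measure (ℝ × ℝ)).IsAddHaarMeasure := by rw [Measure.volume_eq_prod]; infer_instance
  set D := S.shadow c with hD
  set H := S.h c x0 with hH
  set A := volume.real D with hA
  have hA0 : 0 ≤ A := measureReal_nonneg
  have hH0 : 0 ≤ H := S.h_nonneg c x0
  have hDf : volume D ≠ ⊤ := (S.isCompact_shadow c).measure_lt_top.ne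
  have hlev : ∀ τ ∈ Ioi (0:ℝ),
      (Ioo 0 H).indicator (fun τ => ENNReal.ofReal ((1 - τ / H) ^ 2 * A)) τ +
        (Ioo lo hi).indicator (fun _ => volume R) τ ≤ volume {q | τ ≤ S.h c q} := by
    intro τ hτ
    by_cases h1 : τ ∈ Ioo 0 H
    · have hHp : 0 < H := h1.1.trans h1.2
      set l := 1 - τ / H with hl
      have hl1 : l ∈ Ico (0:ℝ) 1 := by
        constructor
        · rw [hl, sub_nonneg, div_le_one hHp]; exact h1.2.le
        · rw [hl, sub_lt_self_iff]; exact div_pos h1.1 hHp
      have hQ : AffineMap.homothety x0 l '' D ⊆ {q | τ ≤ S.h c q} := by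
        rintro _ ⟨d, hd, rfl⟩
        have e : AffineMap.homothety x0 l d = (1 - l) • x0 + l • d := by
          simp only [AffineMap.homothety_apply, vsub_eq_sub, vadd_eq_add]; module
        have h2 := (S.combine c hx0 hd hl1.1 hl1.2.le).2
        have h3 : (1 - l) * H = τ := by rw [hl]; field_simp; ring
        show τ ≤ S.h c (AffineMap.homothety x0 l d)
        rw [e]
        nlinarith [S.h_nonneg c d, hl1.1]
      have hQv : volume (AffineMap.homothety x0 l '' D) = ENNReal.ofReal (l ^ 2 * A) := by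
        rw [Measure.addHaar_image_homothety, Module.finrank_prod, Module.finrank_self,
          ENNReal.ofReal_mul (sq_nonneg l), abs_of_nonneg (sq_nonneg l), hA,
          ofReal_measureReal hDf]
      rw [indicator_of_mem h1]
      by_cases h2 : τ ∈ Ioo lo hi
      · rw [indicator_of_mem h2, ← hQv, ← measure_union _ hR]
        · exact measure_mono (union_subset hQ fun q hq => le_trans h2.2.le (hRh q hq))
        · refine Set.disjoint_left.2 fun q hq hq' => hdis l hl1 ?_ q hq' hq
          have : (1 - l) * H = τ := by rw [hl]; field_simp; ring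
          rwa [this]
      · rw [indicator_of_notMem h2, add_zero, ← hQv]
        exact measure_mono hQ
    · rw [indicator_of_notMem h1, zero_add]
      by_cases h2 : τ ∈ Ioo lo hi
      · rw [indicator_of_mem h2]
        exact measure_mono fun q hq => le_trans h2.2.le (hRh q hq)
      · simp [indicator_of_notMem h2]
  have hmain : ENNReal.ofReal (A * H / 3 + (hi - lo) * volume.real R) ≤ volume S.K := by
    rw [S.volume_K_eq c, lintegral_eq_lintegral_meas_le volume
      (Filter.Eventually.of_forall (S.h_nonneg c)) (S.measurable_h c).aemeasurable]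
    refine le_trans (le_of_eq ?_) (setLIntegral_mono' measurableSet_Ioi hlev)
    rw [lintegral_add_right _ (measurable_const.indicator measurableSet_Ioo),
      setLIntegral_indicator measurableSet_Ioo, setLIntegral_indicator measurableSet_Ioo,
      inter_eq_left.2 (Ioo_subset_Ioi_self : Ioo 0 H ⊆ Ioi 0),
      inter_eq_left.2 ((Ioo_subset_Ioi_self : Ioo lo hi ⊆ Ioi lo).trans (Ioi_subset_Ioi hlo)),
      setLIntegral_const, Real.volume_Ioo, ENNReal.ofReal_add (by positivity)
        (mul_nonneg (by linarith) measureReal_nonneg), ENNReal.ofReal_mul (sub_nonneg.2 hlh),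
      ofReal_measureReal hRf, mul_comm (volume R)]
    congr 1
    have hint : ∫ x in Ioo 0 H, (1 - x / H) ^ 2 * A = A * H / 3 := by
      rcases eq_or_lt_of_le hH0 with h | h
      · simp [← h]
      rw [← integral_Ioc_eq_integral_Ioo, ← intervalIntegral.integral_of_le hH0,
        intervalIntegral.integral_eq_sub_of_hasDerivAt
          (f := fun x => -(H / 3) * A * (1 - x / H) ^ 3)]
      · simp [h.ne']; ring
      · intro x _
        have := (((HasDerivAt.div_const (hasDerivAt_id x) H).const_sub 1).pow 3).const_mul (-(H / 3) * A)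
        refine this.congr_deriv ?_
        simp; field_simp
      · exact Continuous.intervalIntegrable (by fun_prop) _ _
    have hio : IntegrableOn (fun x : ℝ => (1 - x / H) ^ 2 * A) (Ioo 0 H) :=
      (Continuous.integrableOn_Icc (by fun_prop)).mono_set Ioo_subset_Icc_self
    rw [← ofReal_integral_eq_lintegral_ofReal hio
      (Filter.Eventually.of_forall fun x => by positivity), hint]
  exact (ENNReal.ofReal_le_iff_le_toReal S.cpt.measure_lt_top.ne).1 hmain

theorem h_mul_area_le {x : ℝ × ℝ} : volume.real (S.shadow c) * S.h c x / 3 ≤ volume.real S.K := by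
  by_cases hx : x ∈ S.shadow c
  · simpa using S.volume_ge c hx ∅ MeasurableSet.empty (by simp) 0 0 le_rfl le_rfl (by simp)
      (by simp)
  · simp [S.h_eq_zero c hx]

theorem area_pos : 0 < volume.real (S.shadow c) := by
  have hVp : 0 < volume.real S.K :=
    lt_of_lt_of_le (mul_pos S.distortion_pos (by norm_num)) S.real_K_ge
  refine lt_of_le_of_ne measureReal_nonneg fun h0 => ?_
  have hz : volume (S.shadow c) = 0 :=
    (measureReal_eq_zero_iff (S.isCompact_shadow c).measure_lt_top.ne).1 h0.symm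
  have : volume S.K = 0 := by
    rw [S.volume_K_eq c]
    refine (lintegral_congr_ae ?_).trans lintegral_zero
    filter_upwards [measure_eq_zero_iff_ae_notMem.1 hz] with p hp
    simp [S.h_eq_zero c hp]
  simp [measureReal_def, this] at hVp

/-- Near an extremal chord the chord length cannot exceed the conical one. -/
theorem chord_bound {x0 x : ℝ × ℝ} (hx0 : x0 ∈ S.shadow c) (hx : x ∈ S.shadow c)
    (hgood : (1 - eta) * (3 * volume.real S.K) ≤ volume.real (S.shadow c) * S.h c x0)
    (f : R3 →ₗ[ℝ] ℝ) (hle : ∀ y, f y ≤ S.g y) (hu : f (c 1) = 0)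
    (ha : f (iota c x0) ≤ 1 - tc / 8) :
    S.h c x ≤ S.h c x0 * (1 - (f (iota c x) - f (iota c x0)) / (1 - f (iota c x0)) + xi) := by
  have : (volume : Measure (ℝ × ℝ)).IsAddHaarMeasure := by rw [Measure.volume_eq_prod]; infer_instance
  have hA := S.area_pos c
  set a := f (iota c x0) with haa
  set H := S.h c x0 with hH
  have hH0 : 0 ≤ H := S.h_nonneg c x0
  have h1a : tc / 8 ≤ 1 - a := by linarith
  have h1a0 : 0 < 1 - a := lt_of_lt_of_le (by norm_num [tc]) h1a
  have hrange : ∀ q ∈ S.shadow c, -15 ≤ f (iota c q) ∧ f (iota c q) ≤ 1 := by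
    intro q hq
    obtain ⟨s, hs⟩ := (S.mem_shadow c).1 hq
    have e : f (iota c q + s • c 1) = f (iota c q) := by simp [map_add, map_smul, hu]
    rw [← e]
    refine ⟨?_, (hle _).trans ((S.mem_iff _).1 hs)⟩
    have := (hle (-(iota c q + s • c 1))).trans (S.g_le_norm _)
    rw [map_neg, map_neg, norm_neg] at this
    linarith [S.hout _ hs]
  set ψ := fun q => (f (iota c q) - a) / (1 - a) with hψ
  have hψ1 : ψ x ≤ 1 := by rw [hψ, div_le_one h1a0]; linarith [(hrange x hx).2]
  have h2H : S.h c x ≤ 2 * H := by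
    have h1 : S.h c x * volume.real (S.shadow c) ≤ 3 * volume.real S.K := by
      linarith [S.h_mul_area_le c (x := x)]
    have he : (1:ℝ) / 2 ≤ 1 - eta := by norm_num [eta]
    have h2 := mul_le_mul_of_nonneg_left h1 (show 0 ≤ 1 - eta by linarith)
    have h3 := mul_le_mul_of_nonneg_right he (mul_nonneg (S.h_nonneg c x) hA.le)
    nlinarith
  by_contra hneg
  rw [not_le] at hneg
  have hep0 : 0 < ep := by norm_num [ep]
  have hep1 : ep ≤ 1 := by norm_num [ep]
  have hdl : 0 < dl := by norm_num [dl]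
  set ν := ψ x - dl with hν
  set R := AffineMap.homothety x ep '' S.shadow c with hR
  have hex : ∀ d, AffineMap.homothety x ep d = (1 - ep) • x + ep • d := fun d => by
    simp only [AffineMap.homothety_apply, vsub_eq_sub, vadd_eq_add]; module
  have hRc : IsCompact R :=
    (S.isCompact_shadow c).image (AffineMap.homothety x ep).continuous_of_finiteDimensional
  have hRh : ∀ q ∈ R, H * (1 - ψ x + 2 * dl) ≤ S.h c q := by
    rintro _ ⟨d, hd, rfl⟩
    rw [hex]
    refine le_trans ?_ (S.combine c hx hd hep0.le hep1).2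
    have hc : 2 * dl + 2 * ep ≤ xi := by norm_num [dl, ep, xi]
    have h3 : H * (1 - ψ x + xi) < S.h c x := hneg
    nlinarith [S.h_nonneg c d]
  have hdis : ∀ l ∈ Ico (0:ℝ) 1, (1 - l) * H ∈ Ioo (H * (1 - ν)) (H * (1 - ψ x + 2 * dl)) →
      ∀ q ∈ R, q ∉ AffineMap.homothety x0 l '' S.shadow c := by
    rintro l ⟨hl0, -⟩ hl _ ⟨d, hd, rfl⟩ ⟨d', hd', he⟩
    have hlν : l < ν := by nlinarith [hl.1]
    have e0 : AffineMap.homothety x0 l d' = (1 - l) • x0 + l • d' := by
      simp only [AffineMap.homothety_apply, vsub_eq_sub, vadd_eq_add]; module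
    rw [e0, hex] at he
    have h4 := congrArg (fun q => f (iota c q)) he
    simp only [map_add, map_smul, smul_eq_mul, ← haa] at h4
    have h5 : l * (f (iota c d') - a) = (1 - ep) * (f (iota c x) - a) + ep * (f (iota c d) - a) := by
      linarith
    have h6 : f (iota c x) - a = ψ x * (1 - a) := by rw [hψ]; field_simp
    rw [h6] at h5
    have h7 : l * (f (iota c d') - a) ≤ l * (1 - a) :=
      mul_le_mul_of_nonneg_left (by linarith [(hrange d' hd').2]) hl0
    have h8 : -16 ≤ f (iota c d) - a := by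
      have : a ≤ 1 := by linarith
      linarith [(hrange d hd).1]
    have h9 : (dl - ep) * (1 - a) ≤ ep * 16 := by
      have i1 : l * (1 - a) ≤ (ψ x - dl) * (1 - a) :=
        mul_le_mul_of_nonneg_right (hν ▸ hlν.le) h1a0.le
      have i2 : ep * (ψ x * (1 - a)) ≤ ep * (1 - a) :=
        mul_le_mul_of_nonneg_left (mul_le_of_le_one_left h1a0.le hψ1) hep0.le
      have i3 : ep * (-16) ≤ ep * (f (iota c d) - a) := mul_le_mul_of_nonneg_left h8 hep0.le
      linarith
    have h10 : ep * 16 < (dl - ep) * (tc / 8) := by norm_num [dl, ep, tc]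
    have h11 : (dl - ep) * (tc / 8) ≤ (dl - ep) * (1 - a) :=
      mul_le_mul_of_nonneg_left h1a (by norm_num [dl, ep])
    linarith
  have hlo : 0 ≤ H * (1 - ν) := mul_nonneg hH0 (by rw [hν]; linarith)
  have hlh : H * (1 - ν) ≤ H * (1 - ψ x + 2 * dl) :=
    mul_le_mul_of_nonneg_left (by rw [hν]; linarith) hH0
  have hV := S.volume_ge c hx0 R hRc.isClosed.measurableSet hRc.measure_lt_top.ne _ _ hlo hlh hRh hdis
  have hRv : volume.real R = ep ^ 2 * volume.real (S.shadow c) := by
    rw [hR, measureReal_def, Measure.addHaar_image_homothety, Module.finrank_prod,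
      Module.finrank_self, ENNReal.toReal_mul, ENNReal.toReal_ofReal (abs_nonneg _),
      abs_of_nonneg (by positivity), ← measureReal_def]
  rw [hRv, ← hH] at hV
  have hVp : 0 < volume.real S.K :=
    lt_of_lt_of_le (mul_pos S.distortion_pos (by norm_num)) S.real_K_ge
  have hc : 1 < (1 - eta) * (1 + 3 * dl * ep ^ 2) := by norm_num [eta, dl, ep]
  have h12 : H * (1 - ψ x + 2 * dl) - H * (1 - ν) = H * dl := by rw [hν]; ring
  rw [h12] at hV
  have h13 : (1 - eta) * (3 * volume.real S.K) * (1 / 3 + dl * ep ^ 2) ≤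
      volume.real (S.shadow c) * H * (1 / 3 + dl * ep ^ 2) :=
    mul_le_mul_of_nonneg_right hgood (by positivity)
  nlinarith

/-- A nearly extremal chord has a long piece inside the kink shell. -/
theorem good_fibre {x0 : ℝ × ℝ} (hx0 : x0 ∈ S.shadow c)
    (hgood : (1 - eta) * (3 * volume.real S.K) ≤ volume.real (S.shadow c) * S.h c x0) :
    ENNReal.ofReal (tc / 16 / ‖S.T (c 1)‖) ≤
      volume {s : ℝ | iota c x0 + s • c 1 ∈ S.kinkSet (tc / 16) (90 * tc)} := by
  have hn := S.norm_u_pos c
  have hA := S.area_pos c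
  obtain ⟨β, τ, hle, hI, hh, h30⟩ := S.fib_eq_Icc c hx0
  set u := c 1 with hu
  set n := ‖S.T u‖ with hn'
  set w := iota c x0 with hw
  have hlen : 1 ≤ (τ - β) * n := by
    have h0 := S.h_zero_ge c
    have h1 := S.h_mul_area_le c (x := 0)
    rw [← hh]
    have he : (1:ℝ) / 2 ≤ 1 - eta := by norm_num [eta]
    have hV0 : 0 ≤ volume.real S.K := measureReal_nonneg
    have h2 : volume.real (S.shadow c) * S.h c 0 * (1 / 2) ≤
        volume.real (S.shadow c) * S.h c x0 := by nlinarith
    have h3 := mul_le_mul_of_nonneg_right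
      (le_of_mul_le_mul_left (show volume.real (S.shadow c) * (S.h c 0 * (1 / 2)) ≤
        volume.real (S.shadow c) * S.h c x0 by linarith) hA) hn.le
    linarith
  have hmem : ∀ s, w + s • u ∈ S.K ↔ s ∈ Icc β τ := fun s => by rw [← hI]; rfl
  have hnT : ∀ s : ℝ, ‖S.T (s • u)‖ = |s| * n := fun s => by
    rw [map_smul, norm_smul, Real.norm_eq_abs]
  have hend : ∀ e : ℝ, ∀ k : ℝ, (k = 1 ∨ k = -1) → (∀ s : ℝ, 0 < s → ¬(e + k * s ∈ Icc β τ)) →
      ∀ s : ℝ, 0 ≤ s → 1 ≤ S.g (w + (e + k * s) • u) := by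
    intro e k hk ho s hs
    rcases eq_or_lt_of_le hs with h0 | h0
    · subst h0
      refine le_of_forall_pos_lt_add fun d hd => ?_
      have h1 : 1 < S.g (w + (e + k * (d / n / 2)) • u) := by
        rw [← not_le, ← S.mem_iff, hmem]; exact ho _ (by positivity)
      have h2 := S.g_sub (w + (e + k * (d / n / 2)) • u) (w + (e + k * 0) • u)
      have e3 : w + (e + k * (d / n / 2)) • u - (w + (e + k * 0) • u) = (k * (d / n / 2)) • u := by
        module
      rw [e3, hnT] at h2
      have e4 : |k * (d / n / 2)| * n = d / 2 := by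
        have : 0 < d / n / 2 := by positivity
        rcases hk with rfl | rfl <;> simp only [one_mul, neg_mul, abs_neg, abs_of_pos this] <;> field_simp
      linarith
    · refine le_of_lt ?_
      rw [← not_le, ← S.mem_iff, hmem]; exact ho _ h0
  have hpout : ∀ s : ℝ, 0 ≤ s → 1 ≤ S.g (w + τ • u + s • u) := fun s hs => by
    have := hend τ 1 (Or.inl rfl) (fun s hs h => by linarith [h.2]) s hs
    rw [one_mul, add_smul, ← add_assoc] at this
    exact this
  have hqout : ∀ s : ℝ, 0 ≤ s → 1 ≤ S.g (w + β • u - s • u) := fun s hs => by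
    have := hend β (-1) (Or.inr rfl) (fun s hs h => by linarith [h.1]) s hs
    have e : w + (β + -1 * s) • u = w + β • u - s • u := by module
    rwa [e] at this
  have hslack : ∀ (f : R3 →ₗ[ℝ] ℝ) (Y : R3), f u = 0 → (∀ y, f y ≤ S.g y) →
      f (w + τ • u) ≤ 1 - tc / 8 → f Y = 1 → Y ∈ S.K →
      1 - 60 * xi ≤ S.g (w + τ • u + tc • (Y - (w + τ • u))) ∧
      1 - 60 * xi ≤ S.g (w + β • u + tc • (Y - (w + β • u))) := by
    intro f Y hfu hfle hfa hfY hY
    have hfa' : f w ≤ 1 - tc / 8 := by simpa [map_add, map_smul, hfu] using hfa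
    have ht0 : (0:ℝ) ≤ tc := by norm_num [tc]
    have ht1 : tc ≤ 1 := by norm_num [tc]
    set y := pi2 c Y with hy
    have hyD : y ∈ S.shadow c := ⟨Y, hY, rfl⟩
    set xt := (1 - tc) • x0 + tc • y with hxt
    have hxD := (S.combine c hx0 hyD ht0 ht1).1
    have hb := S.chord_bound c hx0 hxD hgood f hfle hfu hfa'
    have hfy : f (iota c y) = 1 := by
      rw [← hfY]
      conv_rhs => rw [← iota_pi2 c Y]
      rw [map_add, map_smul, ← hu, hfu]; simp [hy]
    have hψ : (f (iota c xt) - f w) / (1 - f w) = tc := by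
      have : f (iota c xt) - f w = tc * (1 - f w) := by
        simp only [hxt, map_add, map_smul, smul_eq_mul, hfy, ← hw]; ring
      rw [this, mul_div_cancel_right₀ _ (by linarith [show (0:ℝ) < tc by norm_num [tc]] : (1 - f w) ≠ 0)]
    rw [← hw, ← hxt, hψ, hh] at hb
    obtain ⟨β', τ', -, hI', hh', -⟩ := S.fib_eq_Icc c hxD
    rw [← hxt] at hI' hh'
    set σ := ⟪u, Y⟫_ℝ with hσ
    have hYd : Y = iota c y + σ • u := (iota_pi2 c Y).symm
    have hpt : ∀ e k : ℝ, w + e • u + tc • (Y - (w + e • u)) + k • u =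
        iota c xt + ((1 - tc) * e + tc * σ + k) • u := fun e k => by
      rw [hYd, hxt, map_add, map_smul, map_smul, ← hw]; module
    have hin : ∀ e ∈ Icc β τ, (1 - tc) * e + tc * σ ∈ Icc β' τ' := fun e he => by
      rw [← hI']
      have h1 : w + e • u + tc • (Y - (w + e • u)) ∈ S.K := by
        have : w + e • u + tc • (Y - (w + e • u)) = (1 - tc) • (w + e • u) + tc • Y := by module
        rw [this]
        exact S.cvx ((hmem e).2 he) hY (by linarith) ht0 (by ring)
      have h2 := hpt e 0
      rw [zero_smul, add_zero, add_zero] at h2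
      rw [h2] at h1; exact h1
    have i1 := hin τ (right_mem_Icc.2 hle)
    have i2 := hin β (left_mem_Icc.2 hle)
    set d := 2 * xi * (τ - β) with hd
    have hd0 : 0 < τ - β := by nlinarith
    have hxi : 0 < xi := by norm_num [xi]
    have hlenb : (τ - β) * n * xi ≤ 30 * xi := mul_le_mul_of_nonneg_right h30 hxi.le
    rw [hh'] at hb
    have core : ∀ e k : ℝ, |k| = d → (1 - tc) * e + tc * σ + k ∉ Icc β' τ' →
        1 - 60 * xi ≤ S.g (w + e • u + tc • (Y - (w + e • u))) := by
      intro e k hk hno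
      have h1 : 1 < S.g (w + e • u + tc • (Y - (w + e • u)) + k • u) := by
        rw [← not_le, ← S.mem_iff, hpt]
        exact fun hK => hno (hI' ▸ hK)
      have h2 := S.g_add (w + e • u + tc • (Y - (w + e • u))) (k • u)
      have h3 := S.g_le_norm (k • u)
      rw [hnT, hk, hd] at h3
      nlinarith
    constructor
    · refine core τ d (abs_of_pos (by positivity)) fun hK => ?_
      nlinarith [hK.2, i2.1]
    · refine core β (-d) (by rw [abs_neg, abs_of_pos (show 0 < d by positivity)]) fun hK => ?_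
      nlinarith [hK.1, i1.2]
  obtain ⟨x, hx, i, hi⟩ := S.kink_at_end (c.orthonormal.1 1) (w := w) (p := w + τ • u)
    (q := w + β • u) (τ := τ) (β := β) (t := tc) (err := 60 * xi) (θ := tc / 8)
    (inner_iota c x0) rfl rfl (by norm_num [tc]) (by norm_num [tc]) (by norm_num [tc, xi]) rfl
    ((hmem τ).2 (right_mem_Icc.2 hle)) ((hmem β).2 (left_mem_Icc.2 hle)) hpout hqout hslack
  set L := tc / 16 / n with hL
  have hL0 : 0 ≤ L := by have : (0:ℝ) < tc := by norm_num [tc]
                         positivity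
  have hLle : L ≤ τ - β := by
    rw [hL, div_le_iff₀ hn]
    linarith [show tc / 16 ≤ 1 by norm_num [tc]]
  have hnear : ∀ e : ℝ, 1 ≤ S.g (w + e • u) →
      tc / 2 ≤ S.sd (w + e • u) ((90 * tc) • S.e i) → ∀ s ∈ Icc β τ, |s - e| ≤ L →
      w + s • u ∈ S.kinkSet (tc / 16) (90 * tc) := by
    intro e he hk s hs hse
    have hb : ∀ v : R3, |S.g (w + s • u + v) - S.g (w + e • u + v)| ≤ tc / 16 := fun v => by
      refine (S.g_lip _ _).trans ?_
      have : w + s • u + v - (w + e • u + v) = (s - e) • u := by module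
      rw [this, hnT]
      calc |s - e| * n ≤ L * n := mul_le_mul_of_nonneg_right hse hn.le
        _ = tc / 16 := by rw [hL]; field_simp
    refine ⟨(S.mem_iff _).1 ((hmem s).2 hs), ?_, i, ?_⟩
    · have := hb 0; simp only [add_zero] at this; linarith [(abs_le.1 this).1]
    · have h0 := hb 0; simp only [add_zero] at h0
      have h1 := hb ((90 * tc) • S.e i)
      have h2 := hb (-((90 * tc) • S.e i))
      simp only [sd, sub_eq_add_neg] at hk ⊢
      linarith [(abs_le.1 h0).2, (abs_le.1 h1).1, (abs_le.1 h2).1]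
  rcases hx with hx | hx
  · subst hx
    refine le_trans (le_of_eq ?_) (measure_mono (fun s (hs : s ∈ Icc (τ - L) τ) => hnear τ
      (by simpa using hpout 0 le_rfl) hi s ⟨by linarith [hs.1], hs.2⟩
      (abs_le.2 ⟨by linarith [hs.1], by linarith [hs.2]⟩)))
    rw [Real.volume_Icc]; congr 1; ring
  · rw [mem_singleton_iff] at hx; subst hx
    refine le_trans (le_of_eq ?_) (measure_mono (fun s (hs : s ∈ Icc β (β + L)) => hnear β
      (by simpa using hqout 0 le_rfl) hi s ⟨hs.1, by linarith [hs.2]⟩
      (abs_le.2 ⟨by linarith [hs.1], by linarith [hs.2]⟩)))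
    rw [Real.volume_Icc]; congr 1; ring

end Body

theorem exists_frame_one (u : R3) (hu : ‖u‖ = 1) :
    ∃ c : OrthonormalBasis (Fin 3) ℝ R3, c 1 = u := by
  have hu0 : u ≠ 0 := by rintro rfl; simp at hu
  have : (Submodule.span ℝ {u})ᗮ ≠ ⊥ := fun h => by
    have h2 := (Submodule.span ℝ {u}).finrank_add_finrank_orthogonal
    rw [finrank_span_singleton hu0, h, finrank_bot, finrank_euclideanSpace_fin] at h2
    omega
  obtain ⟨e, he, he0⟩ := Submodule.exists_mem_ne_zero_of_ne_bot this
  have hue : ⟪u, ‖e‖⁻¹ • e⟫_ℝ = 0 := by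
    rw [real_inner_smul_right,
      Submodule.inner_right_of_mem_orthogonal (Submodule.mem_span_singleton_self u) he, mul_zero]
  obtain ⟨c, hc, -⟩ := exists_frame u _ hu (norm_smul_inv_norm he0) hue
  exact ⟨c, hc⟩

theorem cylinder_eq {u : R3} (hu : ‖u‖ = 1) {B : Set R3} (hB : ∀ b ∈ B, ⟪u, b⟫_ℝ = 0) :
    cylinder u B = planeProj u ⁻¹' B := by
  ext x
  constructor
  · rintro ⟨b, hb, s, rfl⟩
    show planeProj u (b + s • u) ∈ B
    simp [planeProj, inner_add_right, real_inner_smul_right, hB b hb, hu]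
    exact hb
  · intro hx
    exact ⟨_, hx, ⟪u, x⟫_ℝ, by simp [planeProj]⟩

namespace Body

variable (S : Body)

/-- What one cylinder can cover, and what it must spend in the kink shell. -/
theorem cylinder_estimate {u : R3} (hu : ‖u‖ = 1) {B : Set R3} (hB : MeasurableSet B)
    (hBp : ∀ b ∈ B, ⟪u, b⟫_ℝ = 0) (hfin : planeArea u B ≠ ⊤) :
    0 < (planeArea u (planeProj u '' S.K)).toReal ∧
    ∃ good bad : ℝ, 0 ≤ bad ∧ good + bad = (planeArea u B).toReal ∧
      volume.real (cylinder u B ∩ S.K) * (planeArea u (planeProj u '' S.K)).toReal ≤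
        3 * volume.real S.K * ((planeArea u B).toReal - eta * bad) ∧
      good * (tc / 480) * volume.real S.K ≤ (planeArea u (planeProj u '' S.K)).toReal *
        volume.real (cylinder u B ∩ S.kinkSet (tc / 16) (90 * tc)) := by
  obtain ⟨c, rfl⟩ := exists_frame_one u hu
  have hn := S.norm_u_pos c
  have hproj : planeArea (c 1) (planeProj (c 1) '' S.K) = volume (S.shadow c) := by
    rw [planeArea_eq c ((S.cpt.image (continuous_planeProj _)).isClosed.measurableSet)]
    congr 1
    ext p
    constructor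
    · rintro ⟨x, hx, he⟩
      refine ⟨x, hx, ?_⟩
      have h1 : planeProj (c 1) x = iota c (pi2 c x) := by
        rw [planeProj, sub_eq_iff_eq_add, iota_pi2]
      rw [h1] at he
      have := congrArg (pi2 c) (congrArg (fun z => z + (0:ℝ) • c 1) he)
      simpa only [pi2_iota] using this
    · rintro ⟨x, hx, rfl⟩
      refine ⟨x, hx, ?_⟩
      rw [planeProj, sub_eq_iff_eq_add, iota_pi2]
  rw [hproj, planeArea_eq c hB, ← measureReal_def, ← measureReal_def]
  rw [planeArea_eq c hB] at hfin
  have hA := S.area_pos c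
  refine ⟨hA, ?_⟩
  set B' := iota c ⁻¹' B with hB'
  set A := volume.real (S.shadow c) with hA'
  set V := volume.real S.K with hV
  have hB'm : MeasurableSet B' := (continuous_iota c).measurable hB
  set G := B' ∩ (S.shadow c ∩ {p | (1 - eta) * (3 * V) ≤ A * S.h c p}) with hG
  have hGm : MeasurableSet G := hB'm.inter ((S.isCompact_shadow c).isClosed.measurableSet.inter
    (measurableSet_le measurable_const ((S.measurable_h c).const_mul A)))
  have hGf : volume G ≠ ⊤ := ne_top_of_le_ne_top hfin (measure_mono inter_subset_left)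
  have hDf : volume (B' \ G) ≠ ⊤ := ne_top_of_le_ne_top hfin (measure_mono sdiff_subset)
  have hpart : volume.real G + volume.real (B' \ G) = volume.real B' := by
    have := measureReal_inter_add_sdiff (μ := volume) (s := B') hGm hfin
    rwa [inter_eq_right.2 (inter_subset_left : G ⊆ B')] at this
  have hslice : ∀ X : Set R3, ∀ p,
      {s : ℝ | iota c p + s • c 1 ∈ cylinder (c 1) B ∩ X} =
        {s | p ∈ B' ∧ iota c p + s • c 1 ∈ X} := by
    intro X p
    ext s
    rw [cylinder_eq hu hBp]
    have : planeProj (c 1) (iota c p + s • c 1) = iota c p := by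
      simp [planeProj, inner_add_right, real_inner_smul_right, inner_iota, hu]
    simp only [mem_inter_iff, mem_preimage, mem_ofPred_eq, this, hB']
  have hCm : MeasurableSet (cylinder (c 1) B) := by
    rw [cylinder_eq hu hBp]; exact (continuous_planeProj _).measurable hB
  refine ⟨volume.real G, volume.real (B' \ G), measureReal_nonneg, hpart, ?_, ?_⟩
  · set a1 := 3 * V / A with ha1
    have ha10 : 0 ≤ a1 := div_nonneg (mul_nonneg (by norm_num) measureReal_nonneg) hA.le
    have he0 : 0 ≤ (1 - eta) * a1 := mul_nonneg (by norm_num [eta]) ha10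
    have hbound : volume (cylinder (c 1) B ∩ S.K) ≤
        ENNReal.ofReal a1 * volume G + ENNReal.ofReal ((1 - eta) * a1) * volume (B' \ G) := by
      rw [volume_slices c (hCm.inter S.cpt.isClosed.measurableSet)]
      calc ∫⁻ p, volume {s : ℝ | iota c p + s • c 1 ∈ cylinder (c 1) B ∩ S.K}
          ≤ ∫⁻ p, (G.indicator (fun _ => ENNReal.ofReal a1) p +
              (B' \ G).indicator (fun _ => ENNReal.ofReal ((1 - eta) * a1)) p) := by
            refine lintegral_mono fun p => ?_
            rw [hslice]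
            by_cases hp : p ∈ B'
            · have e : {s : ℝ | p ∈ B' ∧ iota c p + s • c 1 ∈ S.K} = S.fib c p := by
                ext s; simp [fib, hp]
              rw [e, ← ENNReal.ofReal_toReal (S.fib_finite c p)]
              by_cases hg : p ∈ G
              · rw [indicator_of_mem hg, indicator_of_notMem (fun h => h.2 hg), add_zero]
                refine ENNReal.ofReal_le_ofReal ?_
                show S.h c p ≤ a1
                rw [ha1, le_div_iff₀ hA]
                linarith [S.h_mul_area_le c (x := p)]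
              · rw [indicator_of_notMem hg,
                  indicator_of_mem (show p ∈ B' \ G from ⟨hp, hg⟩), zero_add]
                refine ENNReal.ofReal_le_ofReal ?_
                show S.h c p ≤ (1 - eta) * a1
                by_cases hd : p ∈ S.shadow c
                · have : A * S.h c p < (1 - eta) * (3 * V) :=
                    not_le.1 fun h => hg ⟨hp, hd, h⟩
                  rw [ha1, ← mul_div_assoc, le_div_iff₀ hA]
                  linarith
                · rw [S.h_eq_zero c hd]; exact he0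
            · simp [hp]
        _ = _ := by
            rw [lintegral_add_left (measurable_const.indicator hGm),
              lintegral_indicator_const hGm, lintegral_indicator_const (hB'm.diff hGm)]
    have hfinR : ENNReal.ofReal a1 * volume G + ENNReal.ofReal ((1 - eta) * a1) * volume (B' \ G) ≠ ⊤ :=
      ENNReal.add_ne_top.2 ⟨ENNReal.mul_ne_top ENNReal.ofReal_ne_top hGf,
        ENNReal.mul_ne_top ENNReal.ofReal_ne_top hDf⟩
    have h := ENNReal.toReal_mono hfinR hbound
    rw [ENNReal.toReal_add (ENNReal.mul_ne_top ENNReal.ofReal_ne_top hGf)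
        (ENNReal.mul_ne_top ENNReal.ofReal_ne_top hDf), ENNReal.toReal_mul, ENNReal.toReal_mul,
      ENNReal.toReal_ofReal ha10, ENNReal.toReal_ofReal he0, ← measureReal_def,
      ← measureReal_def, ← measureReal_def] at h
    calc volume.real (cylinder (c 1) B ∩ S.K) * A
        ≤ (a1 * volume.real G + (1 - eta) * a1 * volume.real (B' \ G)) * A :=
          mul_le_mul_of_nonneg_right h hA.le
      _ = 3 * V * (volume.real B' - eta * volume.real (B' \ G)) := by
          rw [← hpart, ha1]; field_simp; ring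
  · set U := S.kinkSet (tc / 16) (90 * tc) with hU
    set L := tc / 16 / ‖S.T (c 1)‖ with hL
    have hL0 : 0 ≤ L := div_nonneg (by norm_num [tc]) (norm_nonneg _)
    have hbound : ENNReal.ofReal L * volume G ≤ volume (cylinder (c 1) B ∩ U) := by
      rw [volume_slices c (hCm.inter (S.measurableSet_kinkSet _ _)),
        ← lintegral_indicator_const hGm]
      refine lintegral_mono fun p => ?_
      by_cases hg : p ∈ G
      · rw [indicator_of_mem hg, hslice]
        refine (S.good_fibre c hg.2.1 hg.2.2).trans (measure_mono ?_)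
        exact fun s hs => ⟨hg.1, hs⟩
      · simp [indicator_of_notMem hg]
    have hCU : volume (cylinder (c 1) B ∩ U) ≠ ⊤ :=
      ne_top_of_le_ne_top S.cpt.measure_lt_top.ne
        (measure_mono (inter_subset_right.trans (S.kinkSet_subset _ _)))
    have h := ENNReal.toReal_mono hCU hbound
    rw [ENNReal.toReal_mul, ENNReal.toReal_ofReal hL0, ← measureReal_def, ← measureReal_def] at h
    have hVA : V * ‖S.T (c 1)‖ ≤ 30 * A := by
      have h30 : ∀ p, S.h c p ≤ (S.shadow c).indicator (fun _ => 30 / ‖S.T (c 1)‖) p := fun p => by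
        by_cases hp : p ∈ S.shadow c
        · obtain ⟨β, τ, -, -, hh, h30⟩ := S.fib_eq_Icc c hp
          rw [indicator_of_mem hp, le_div_iff₀ hn, hh]; exact h30
        · simp [indicator_of_notMem hp, S.h_eq_zero c hp]
      have hK : volume S.K ≤ ENNReal.ofReal (30 / ‖S.T (c 1)‖) * volume (S.shadow c) := by
        rw [S.volume_K_eq c, ← lintegral_indicator_const (S.isCompact_shadow c).isClosed.measurableSet]
        refine lintegral_mono fun p => ?_
        refine (ENNReal.ofReal_le_ofReal (h30 p)).trans (le_of_eq ?_)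
        by_cases hp : p ∈ S.shadow c <;> simp [hp]
      have h2 := ENNReal.toReal_mono
        (ENNReal.mul_ne_top ENNReal.ofReal_ne_top (S.isCompact_shadow c).measure_lt_top.ne) hK
      rw [ENNReal.toReal_mul, ENNReal.toReal_ofReal (by positivity), ← measureReal_def,
        ← measureReal_def, div_mul_eq_mul_div, le_div_iff₀ hn] at h2
      exact h2
    calc volume.real G * (tc / 480) * V = L * volume.real G * (V * ‖S.T (c 1)‖ / 30) := by
          rw [hL]; field_simp; ring
      _ ≤ volume.real (cylinder (c 1) B ∩ U) * A :=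
          mul_le_mul h (by linarith) (by positivity) measureReal_nonneg
      _ = _ := mul_comm _ _

end Body

end

end Vale.Agent.P243.Gap
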