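import Vale.Agent.P243.Gap.Body
import Mathlib.MeasureTheory.Integral.Bochner.Set

/-!
The set of boundary points where the gauge has a kink is thin.
-/

namespace Vale.Agent.P243.Gap

open MeasureTheory Set
open scoped ENNReal Pointwise

noncomputable section

namespace Body

variable (S : Body)

/-- The factor by which the linear map distorts volume. -/
def distortion : ℝ :=
  |LinearMap.det (((EuclideanSpace.equiv (Fin 3) ℝ).symm.trans S.T).symm : V3 →ₗ[ℝ] V3)|

theorem distortion_pos : 0 < S.distortion :=
  abs_pos.2 (LinearEquiv.isUnit_det' _).ne_zero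

theorem volume_preimage_T (A : Set V3) (hA : MeasurableSet A) :
    volume (S.T ⁻¹' A) = ENNReal.ofReal S.distortion * volume A := by
  set L := (EuclideanSpace.equiv (Fin 3) ℝ).symm.trans S.T with hL
  have h1 : S.T ⁻¹' A = (WithLp.ofLp : R3 → V3) ⁻¹' (L ⁻¹' A) := by
    ext x
    simp only [mem_preimage, hL, ContinuousLinearEquiv.trans_apply]
    exact iff_of_eq (congrArg (fun y => y ∈ A) (congrArg S.T (by simp)))
  rw [h1, (PiLp.volume_preserving_ofLp (ι := Fin 3)).measure_preimage
    (L.continuous.measurable hA).nullMeasurableSet,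
    Measure.addHaar_preimage_continuousLinearEquiv]
  rfl

/-- The cube of half-side sixteen in the linear coordinates. -/
def box : Set R3 := S.T ⁻¹' Icc (fun _ => (-16:ℝ)) (fun _ => 16)

theorem K_subset_box : S.K ⊆ S.box := fun x hx => by
  have h := S.hout x hx
  have hi := fun i => abs_le.1 ((norm_le_pi_norm (S.T x) i).trans h)
  exact ⟨fun i => by linarith [(hi i).1], fun i => by linarith [(hi i).2]⟩

theorem measurableSet_box : MeasurableSet S.box :=
  S.T.continuous.measurable measurableSet_Icc

theorem volume_box : volume S.box = ENNReal.ofReal (S.distortion * 32768) := by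
  rw [box, S.volume_preimage_T _ measurableSet_Icc, Real.volume_Icc_pi,
    ENNReal.ofReal_mul S.distortion_pos.le]
  congr 1
  simp only [Fin.prod_univ_three, ← ENNReal.ofReal_mul (show (0:ℝ) ≤ 16 - -16 by norm_num)]
  rw [← ENNReal.ofReal_mul (by norm_num)]
  norm_num

theorem volume_K_ge : ENNReal.ofReal (S.distortion * 8) ≤ volume S.K := by
  have hsub : S.T ⁻¹' Icc (fun _ => (-1:ℝ)) (fun _ => 1) ⊆ S.K := fun x hx => by
    refine S.hin x ((pi_norm_le_iff_of_nonneg zero_le_one).2 fun i => ?_)
    exact abs_le.2 ⟨hx.1 i, hx.2 i⟩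
  refine le_trans (le_of_eq ?_) (measure_mono hsub)
  rw [S.volume_preimage_T _ measurableSet_Icc, Real.volume_Icc_pi,
    ENNReal.ofReal_mul S.distortion_pos.le]
  congr 1
  simp only [Fin.prod_univ_three, ← ENNReal.ofReal_mul (show (0:ℝ) ≤ 1 - -1 by norm_num)]
  rw [← ENNReal.ofReal_mul (by norm_num)]
  norm_num

theorem real_K_ge : S.distortion * 8 ≤ volume.real S.K :=
  (ENNReal.ofReal_le_iff_le_toReal S.cpt.measure_lt_top.ne).1 S.volume_K_ge

theorem box_finite : volume S.box < ⊤ := by
  rw [S.volume_box]; exact ENNReal.ofReal_lt_top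

/-- Shifting the cube along a coordinate changes little. -/
theorem slab_le (i : Fin 3) (a : ℝ) :
    volume.real (S.box \ ((fun x => x + a • S.e i) ⁻¹' S.box)) ≤ S.distortion * 1024 * |a| := by
  set lo : V3 := Function.update (fun _ => (-16:ℝ)) i (if 0 ≤ a then 16 - a else -16) with hlo
  set hi : V3 := Function.update (fun _ => (16:ℝ)) i (if 0 ≤ a then 16 else -16 - a) with hhi
  have hsub : S.box \ ((fun x => x + a • S.e i) ⁻¹' S.box) ⊆ S.T ⁻¹' Icc lo hi := by
    rintro x ⟨hx, hn⟩
    simp only [box, mem_preimage, mem_Icc, Pi.le_def] at hx hn ⊢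
    have hT : ∀ j, S.T (x + a • S.e i) j = S.T x j + a * (Pi.single i 1 : V3) j := fun j => by
      simp [e, map_add, map_smul]
    simp only [hT] at hn
    have hi_bad : S.T x i + a < -16 ∨ 16 < S.T x i + a := by
      by_contra hb
      simp only [not_or, not_lt] at hb
      refine hn ⟨fun j => ?_, fun j => ?_⟩ <;> by_cases hj : j = i
      · subst hj; simpa using hb.1
      · simpa [hj] using hx.1 j
      · subst hj; simpa using hb.2
      · simpa [hj] using hx.2 j
    constructor <;> intro j <;> by_cases hj : j = i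
    · subst hj
      simp only [hlo, Function.update_self]
      rcases hi_bad with h | h <;> split <;> linarith [hx.1 j, hx.2 j]
    · simp [hlo, hj, hx.1 j]
    · subst hj
      simp only [hhi, Function.update_self]
      rcases hi_bad with h | h <;> split <;> linarith [hx.1 j, hx.2 j]
    · simp [hhi, hj, hx.2 j]
  have hd : ∀ j, hi j - lo j = if j = i then |a| else 32 := fun j => by
    by_cases hj : j = i
    · subst hj
      by_cases ha : 0 ≤ a
      · simp [hlo, hhi, ha, abs_of_nonneg ha]
      · simp [hlo, hhi, ha, abs_of_neg (not_le.1 ha)]; ring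
    · simp [hlo, hhi, hj]; norm_num
  have hv : volume (S.T ⁻¹' Icc lo hi) = ENNReal.ofReal (S.distortion * 1024 * |a|) := by
    rw [S.volume_preimage_T _ measurableSet_Icc, Real.volume_Icc_pi, mul_assoc,
      ENNReal.ofReal_mul S.distortion_pos.le]
    congr 1
    simp only [hd]
    rw [← ENNReal.ofReal_prod_of_nonneg (fun j _ => by split <;> positivity)]
    congr 1
    fin_cases i <;> simp [Fin.prod_univ_three] <;> norm_num <;> first | ring | exact Or.inl trivial | simp
  refine ENNReal.toReal_le_of_le_ofReal
    (mul_nonneg (mul_nonneg S.distortion_pos.le (by norm_num)) (abs_nonneg _)) ?_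
  exact (measure_mono hsub).trans hv.le

theorem sd_continuous (v : R3) : Continuous fun x => S.sd x v :=
  ((S.g_continuous.comp (continuous_id.add continuous_const)).add
    (S.g_continuous.comp (continuous_id.sub continuous_const))).sub
      (continuous_const.mul S.g_continuous)

theorem norm_T_e (i : Fin 3) {a : ℝ} : ‖S.T (a • S.e i)‖ = |a| := by
  simp [e, norm_smul, Pi.norm_single]

theorem integral_sd (i : Fin 3) {a : ℝ} (ha : 0 ≤ a) :
    ∫ x in S.box, S.sd x (a • S.e i) ≤ S.distortion * 2048 * a ^ 2 := by
  set v := a • S.e i with hv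
  set D : R3 → ℝ := fun x => S.g (x + v) - S.g x with hD
  have hDc : Continuous D :=
    (S.g_continuous.comp (continuous_id.add continuous_const)).sub S.g_continuous
  have hDb : ∀ x, |D x| ≤ a := fun x => by
    have := S.g_lip (x + v) x
    rwa [add_sub_cancel_left, hv, S.norm_T_e, abs_of_nonneg ha] at this
  set B := (fun x => x + v) ⁻¹' S.box with hB
  have hBm : MeasurableSet B := (continuous_id.add continuous_const).measurable S.measurableSet_box
  have hBf : volume B < ⊤ := by
    rw [hB, measure_preimage_add_right]; exact S.box_finite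
  have hio : ∀ A : Set R3, volume A < ⊤ → IntegrableOn D A := fun A hA =>
    IntegrableOn.of_bound hA hDc.aestronglyMeasurable a (Filter.Eventually.of_forall hDb)
  have hshift : ∫ x in S.box, D (x - v) = ∫ x in B, D x := by
    have h := (measurePreserving_add_right volume v).setIntegral_preimage_emb
      (MeasurableEquiv.addRight v).measurableEmbedding (fun x => D (x - v)) S.box
    simp only [add_sub_cancel_right] at h
    exact h.symm
  have hioshift : IntegrableOn (fun x => D (x - v)) S.box :=
    IntegrableOn.of_bound S.box_finite (hDc.comp (continuous_id.sub continuous_const)).aestronglyMeasurable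
      a (Filter.Eventually.of_forall fun x => hDb (x - v))
  have hsd : ∀ x, S.sd x v = D x - D (x - v) := fun x => by
    simp [sd, hD, sub_add_cancel]; ring
  simp only [hsd]
  rw [integral_sub (hio _ S.box_finite) hioshift, hshift,
    ← integral_inter_add_sdiff hBm (hio _ S.box_finite),
    ← integral_inter_add_sdiff S.measurableSet_box (hio _ hBf), Set.inter_comm B]
  have h1 : |∫ x in S.box \ B, D x| ≤ a * (S.distortion * 1024 * a) := by
    have := norm_setIntegral_le_of_norm_le_const (f := D) (s := S.box \ B)
      ((measure_mono sdiff_subset).trans_lt S.box_finite) (fun x _ => hDb x) (μ := volume)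
    have h2 := S.slab_le i a
    rw [abs_of_nonneg ha] at h2
    exact this.trans (mul_le_mul_of_nonneg_left h2 ha)
  have h2 : |∫ x in B \ S.box, D x| ≤ a * (S.distortion * 1024 * a) := by
    have := norm_setIntegral_le_of_norm_le_const (f := D) (s := B \ S.box)
      ((measure_mono sdiff_subset).trans_lt hBf) (fun x _ => hDb x) (μ := volume)
    have h2 := S.slab_le i (-a)
    rw [abs_neg, abs_of_nonneg ha] at h2
    have he : volume.real (B \ S.box) = volume.real (S.box \ ((fun x => x + (-a) • S.e i) ⁻¹' S.box)) := by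
      simp only [measureReal_def]
      congr 1
      rw [← measure_preimage_add_right volume (-v)]
      congr 1
      ext x
      simp [hB, hv, neg_smul, ← sub_eq_add_neg]
    rw [he] at this
    exact this.trans (mul_le_mul_of_nonneg_left h2 ha)
  have := (abs_le.1 h1).2
  have := (abs_le.1 h2).1
  nlinarith

/-- The boundary shell of kinks at scale `a`. -/
def kinkSet (r a : ℝ) : Set R3 :=
  {x | S.g x ≤ 1 ∧ 1 - r ≤ S.g x ∧ ∃ i, a / 360 ≤ S.sd x (a • S.e i)}

theorem kinkSet_subset (r a : ℝ) : S.kinkSet r a ⊆ S.K := fun _ hx => (S.mem_iff _).2 hx.1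

theorem measurableSet_kinkSet (r a : ℝ) : MeasurableSet (S.kinkSet r a) := by
  have : S.kinkSet r a = {x | S.g x ≤ 1} ∩ ({x | 1 - r ≤ S.g x} ∩
      ⋃ i, {x | a / 360 ≤ S.sd x (a • S.e i)}) := by
    ext x; simp [kinkSet]
  rw [this]
  exact (measurableSet_le S.g_continuous.measurable measurable_const).inter
    ((measurableSet_le measurable_const S.g_continuous.measurable).inter
      (MeasurableSet.iUnion fun i => measurableSet_le measurable_const (S.sd_continuous _).measurable))

theorem volume_kinkSet {r a : ℝ} (ha : 0 < a) (hr : 0 < r) (hr' : r ≤ 1 / 16) :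
    volume.real (S.kinkSet r a) ≤ 40000000 * r * a * volume.real S.K := by
  set W := fun i => S.box ∩ {x | a / 720 ≤ S.sd x (a • S.e i)} with hW
  have hWm : ∀ i, volume.real (W i) ≤ S.distortion * 1474560 * a := fun i => by
    have hint : IntegrableOn (fun x => S.sd x (a • S.e i)) S.box := by
      refine IntegrableOn.of_bound S.box_finite (S.sd_continuous _).aestronglyMeasurable (2 * a)
        (Filter.Eventually.of_forall fun x => ?_)
      rw [Real.norm_eq_abs, abs_of_nonneg (S.sd_nonneg _ _)]
      have h1 := S.g_lip (x + a • S.e i) x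
      have h2 := S.g_lip (x - a • S.e i) x
      rw [add_sub_cancel_left, S.norm_T_e, abs_of_pos ha] at h1
      rw [sub_sub_cancel_left, map_neg, norm_neg, S.norm_T_e, abs_of_pos ha] at h2
      simp only [sd]; linarith [(abs_le.1 h1).2, (abs_le.1 h2).2]
    have h := mul_meas_ge_le_integral_of_nonneg (μ := volume.restrict S.box)
      (Filter.Eventually.of_forall fun x => S.sd_nonneg x (a • S.e i)) hint (a / 720)
    rw [measureReal_restrict_apply
      (measurableSet_le measurable_const (S.sd_continuous _).measurable), inter_comm] at h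
    have := h.trans (S.integral_sd i ha.le)
    nlinarith
  set n := ⌊1 / (4 * r)⌋₊ with hn
  have hn1 : 1 / (8 * r) ≤ (n : ℝ) := by
    have h1 := (Nat.lt_floor_add_one (1 / (4 * r)))
    have h2 : 1 ≤ 1 / (8 * r) := by rw [le_div_iff₀ (by positivity)]; linarith
    have h3 : 1 / (4 * r) = 2 * (1 / (8 * r)) := by ring
    linarith
  have hn2 : (n : ℝ) * (2 * r) ≤ 1 / 2 := by
    have := Nat.floor_le (show 0 ≤ 1 / (4 * r) by positivity)
    rw [← hn, le_div_iff₀ (by positivity)] at this
    linarith
  set l : ℕ → ℝ := fun j => (1 - 2 * r) ^ j with hl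
  have hl0 : ∀ j, 0 < l j := fun j => pow_pos (by linarith) j
  have hl1 : ∀ j, l j ≤ 1 := fun j => pow_le_one₀ (by linarith) (by linarith)
  have hlh : ∀ j ≤ n, 1 / 2 ≤ l j := fun j hj => by
    have h := one_add_mul_le_pow (show (-2:ℝ) ≤ -(2 * r) by linarith) j
    have : (j:ℝ) ≤ n := by exact_mod_cast hj
    simp only [hl, sub_eq_add_neg] at *
    nlinarith
  have hscale : ∀ j, volume.real (l j • S.kinkSet r a) = l j ^ 3 * volume.real (S.kinkSet r a) := by
    intro j
    rw [measureReal_def, Measure.addHaar_smul, finrank_euclideanSpace_fin, ENNReal.toReal_mul,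
      ENNReal.toReal_ofReal (abs_nonneg _), abs_of_pos (pow_pos (hl0 j) 3), measureReal_def]
  have hmem : ∀ j, ∀ x ∈ l j • S.kinkSet r a, S.g x ≤ l j ∧ l j * (1 - r) ≤ S.g x := by
    rintro j _ ⟨x, hx, rfl⟩
    simp only [S.g_smul (hl0 j).le]
    exact ⟨mul_le_of_le_one_right (hl0 j).le hx.1, mul_le_mul_of_nonneg_left hx.2.1 (hl0 j).le⟩
  have hsub : ∀ j < n, l j • S.kinkSet r a ⊆ ⋃ i, W i := by
    rintro j hj _ ⟨x, ⟨h1, -, i, hi⟩, rfl⟩
    refine mem_iUnion.2 ⟨i, S.K_subset_box ((S.mem_iff _).2 ?_), ?_⟩
    · rw [S.g_smul (hl0 j).le]; nlinarith [hl1 j, hl0 j]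
    · show a / 720 ≤ S.sd (l j • x) (a • S.e i)
      have hs : S.sd (l j • x) ((l j * a) • S.e i) = l j * S.sd x (a • S.e i) := by
        simp only [sd, mul_smul, ← smul_add, ← smul_sub, S.g_smul (hl0 j).le]; ring
      have := S.sd_mono (l j • x) (S.e i) (a := l j * a) (b := a)
        (by rw [abs_of_pos (mul_pos (hl0 j) ha)]; nlinarith [hl1 j])
      rw [hs] at this
      nlinarith [hlh j hj.le, S.sd_nonneg x (a • S.e i)]
  have hdisj : (Finset.range n : Set ℕ).PairwiseDisjoint (fun j => l j • S.kinkSet r a) := by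
    have key : ∀ j k, j < k → Disjoint (l j • S.kinkSet r a) (l k • S.kinkSet r a) := by
      intro j k hjk
      refine Set.disjoint_left.2 fun x hx hx' => ?_
      have := (hmem j x hx).2
      have := (hmem k x hx').1
      have : l k ≤ l j * (1 - 2 * r) := by
        simp only [hl]
        rw [← pow_succ]
        exact pow_le_pow_of_le_one (by linarith) (by linarith) hjk
      nlinarith [hl0 j]
    intro j _ k _ hjk
    rcases lt_or_gt_of_ne hjk with h | h
    · exact key j k h
    · exact (key k j h).symm
  have hfin : ∀ A ⊆ S.box, volume A ≠ ⊤ := fun A hA =>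
    ((measure_mono hA).trans_lt S.box_finite).ne
  have hWsub : (⋃ i, W i) ⊆ S.box := iUnion_subset fun i => inter_subset_left
  have hsum : ∑ j ∈ Finset.range n, volume.real (l j • S.kinkSet r a) ≤ volume.real (⋃ i, W i) := by
    rw [← measureReal_biUnion_finset hdisj
      (fun j _ => (S.measurableSet_kinkSet r a).const_smul_of_ne_zero (hl0 j).ne')
      (fun j hj => hfin _ ((hsub j (Finset.mem_range.1 hj)).trans hWsub))]
    exact measureReal_mono (iUnion₂_subset fun j hj => hsub j (Finset.mem_range.1 hj))
      (hfin _ hWsub)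
  have hU : volume.real (⋃ i, W i) ≤ 3 * (S.distortion * 1474560 * a) := by
    refine (measureReal_iUnion_fintype_le W).trans ?_
    rw [Fin.sum_univ_three]; linarith [hWm 0, hWm 1, hWm 2]
  have hlow : (n : ℝ) * (1 / 8 * volume.real (S.kinkSet r a)) ≤
      ∑ j ∈ Finset.range n, volume.real (l j • S.kinkSet r a) := by
    have : ∑ j ∈ Finset.range n, (1 / 8 * volume.real (S.kinkSet r a)) ≤
        ∑ j ∈ Finset.range n, volume.real (l j • S.kinkSet r a) := by
      refine Finset.sum_le_sum fun j hj => ?_
      rw [hscale]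
      refine mul_le_mul_of_nonneg_right ?_ measureReal_nonneg
      calc (1:ℝ) / 8 = (1 / 2) ^ 3 := by norm_num
        _ ≤ l j ^ 3 := pow_le_pow_left₀ (by norm_num) (hlh j (Finset.mem_range.1 hj).le) 3
    simpa using this
  set U := volume.real (S.kinkSet r a) with hUdef
  have hU0 : 0 ≤ U := measureReal_nonneg
  have h64 : U / (64 * r) ≤ 3 * (S.distortion * 1474560 * a) := by
    have : U / (64 * r) = 1 / (8 * r) * (1 / 8 * U) := by ring
    rw [this]
    exact ((mul_le_mul_of_nonneg_right hn1 (by positivity)).trans hlow).trans (hsum.trans hU)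
  rw [div_le_iff₀ (by positivity)] at h64
  have := S.real_K_ge
  have hda : 0 ≤ r * a := by positivity
  nlinarith [S.distortion_pos]

end Body

end

end Vale.Agent.P243.Gap
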