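import Vale.Agent.P243.Gap.Body
import Mathlib.LinearAlgebra.Determinant
import Mathlib.Topology.Instances.Matrix

/-!
Every convex body is squeezed between two homothetic linear cubes.
-/

namespace Vale.Agent.P243.Gap

open Set

noncomputable section

/-- The edges at the first vertex. -/
def edges (v : Fin 4 → R3) : Fin 3 → R3 := fun i => v i.succ - v 0

/-- The signed volume spanned by four points. -/
def svol (v : Fin 4 → R3) : ℝ :=
  ((EuclideanSpace.basisFun (Fin 3) ℝ).toBasis.toMatrix (edges v)).det

theorem continuous_svol : Continuous svol := by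
  refine Continuous.matrix_det ?_
  refine continuous_matrix fun i j => ?_
  simp only [Module.Basis.toMatrix_apply, OrthonormalBasis.coe_toBasis_repr_apply,
    EuclideanSpace.basisFun_repr, edges]
  fun_prop

theorem exists_normal {K : Set R3} (hK : Convex ℝ K) (hKc : IsCompact K)
    (hKi : (interior K).Nonempty) :
    ∃ (a : R3) (S : Body), S.K = (fun x => x + a) ⁻¹' K := by
  classical
  set b := (EuclideanSpace.basisFun (Fin 3) ℝ).toBasis with hb
  obtain ⟨p, hp⟩ := hKi
  have hne : (univ.pi fun _ : Fin 4 => K).Nonempty := ⟨fun _ => p, fun _ _ => interior_subset hp⟩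
  obtain ⟨v, hv, hmax⟩ := (isCompact_univ_pi fun _ : Fin 4 => hKc).exists_isMaxOn hne
    continuous_svol.abs.continuousOn
  have hvK : ∀ i, v i ∈ K := fun i => hv i trivial
  set w := edges v with hw
  have hdet : ∀ u, svol u = b.det (edges u) := fun u => (b.det_apply _).symm
  have hpos : 0 < |svol v| := by
    obtain ⟨r, hr, hball⟩ := Metric.mem_nhds_iff.1 (mem_interior_iff_mem_nhds.1 hp)
    set q : Fin 4 → R3 := Fin.cases p (fun i => p + (r / 2) • b i) with hq
    have hqK : q ∈ univ.pi fun _ : Fin 4 => K := by
      intro i _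
      refine Fin.cases ?_ (fun j => ?_) i
      · exact interior_subset hp
      · refine hball ?_
        simp [q, b, norm_smul, abs_of_pos hr, hr]
    have he : edges q = (fun i => (r / 2) • b i) := by funext i; simp [edges, q]
    have : svol q ≠ 0 := by
      rw [hdet, he, AlternatingMap.map_smul_univ, b.det_self]
      simp [hr.ne']
    exact lt_of_lt_of_le (abs_pos.2 this) (hmax hqK)
  have hw0 : b.det w ≠ 0 := by rw [hw, ← hdet]; exact abs_pos.1 hpos
  obtain ⟨hli, hsp⟩ := (Module.Basis.is_basis_iff_det b).2 (isUnit_iff_ne_zero.2 hw0)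
  set W := Module.Basis.mk hli hsp.ge with hW
  have hWi : ∀ i, W i = w i := fun i => Module.Basis.mk_apply _ _ i
  have hcoef : ∀ x ∈ K, ∀ i, |W.repr (x - v 0) i| ≤ 1 := by
    intro x hx i
    set v' := Function.update v i.succ x with hv'
    have hv'K : v' ∈ univ.pi fun _ : Fin 4 => K := by
      intro j _
      by_cases hj : j = i.succ
      · subst hj; simpa [hv'] using hx
      · simpa [hv', hj] using hvK j
    have he : edges v' = Function.update w i (x - v 0) := by
      funext j
      by_cases hj : j = i
      · subst hj; simp [edges, hv', (Fin.succ_ne_zero _).symm]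
      · simp [edges, hv', hw, hj, (Fin.succ_ne_zero _).symm]
    have hval : svol v' = W.repr (x - v 0) i * svol v := by
      rw [hdet, hdet, he, ← hw]
      conv_lhs => rw [← W.sum_repr (x - v 0)]
      simp only [hWi]
      rw [AlternatingMap.map_update_sum, Finset.sum_eq_single i]
      · rw [AlternatingMap.map_update_smul, Function.update_eq_self, smul_eq_mul]
      · intro j _ hj
        rw [AlternatingMap.map_update_smul, b.det.map_eq_zero_of_eq _ (i := i) (j := j) ?_ hj.symm,
          smul_zero]
        simp [Function.update_of_ne hj]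
      · simp
    have h := hmax hv'K
    simp only [Set.mem_ofPred_eq, hval, abs_mul] at h
    exact (mul_le_iff_le_one_left hpos).1 h
  set a := v 0 + (1/4 : ℝ) • (w 0 + w 1 + w 2) with ha
  set T : R3 ≃L[ℝ] V3 :=
    W.equivFunL.trans (ContinuousLinearEquiv.smulLeft (Units.mk0 (12:ℝ) (by norm_num))) with hT
  have hTa : ∀ x i, T x i = 12 * W.repr x i := fun x i => by simp [hT, Units.smul_def]
  have hWa : ∀ i, W.repr (a - v 0) i = 1 / 4 := fun i => by
    rw [ha, add_sub_cancel_left, ← hWi, ← hWi, ← hWi]
    simp only [map_smul, map_add, W.repr_self, Finsupp.smul_apply, Finsupp.add_apply]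
    fin_cases i <;> simp
  refine ⟨a, ⟨_, T, ?_, ?_, ?_, ?_⟩, rfl⟩
  · exact (Homeomorph.addRight a).isCompact_preimage.2 hKc
  · exact hK.translate_preimage_left a
  · intro x hx
    show x + a ∈ K
    set C := fun i => W.repr (x + a - v 0) i with hC
    have hCi : ∀ i, C i ∈ Icc (1/6 : ℝ) (1/3) := by
      intro i
      have h := (norm_le_pi_norm (T x) i).trans hx
      rw [Real.norm_eq_abs, hTa, abs_le] at h
      have e : C i = W.repr x i + 1 / 4 := by
        rw [hC, ← hWa i]
        simp [add_sub_assoc]
      exact ⟨by linarith [h.1], by linarith [h.2]⟩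
    have hx' : x + a = ∑ j : Fin 4, (Fin.cases (motive := fun _ => ℝ) (1 - (C 0 + C 1 + C 2)) C j) • v j := by
      have h := W.sum_repr (x + a - v 0)
      simp only [hWi, Fin.sum_univ_three, hw, edges] at h
      rw [Fin.sum_univ_four]
      rw [sub_eq_iff_eq_add.1 h.symm]
      show _ = (1 - (C 0 + C 1 + C 2)) • v 0 + C 0 • v 1 + C 1 • v 2 + C 2 • v 3
      show C 0 • (v 1 - v 0) + C 1 • (v 2 - v 0) + C 2 • (v 3 - v 0) + v 0 = _
      module
    rw [hx']
    refine hK.sum_mem (fun j _ => ?_) ?_ fun j _ => hvK j
    · refine Fin.cases ?_ (fun i => ?_) j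
      · simp only [Fin.cases_zero]; linarith [(hCi 0).2, (hCi 1).2, (hCi 2).2]
      · simp only [Fin.cases_succ]; linarith [(hCi i).1]
    · rw [Fin.sum_univ_four]
      show 1 - (C 0 + C 1 + C 2) + C 0 + C 1 + C 2 = 1
      ring
  · intro x hx
    refine (pi_norm_le_iff_of_nonneg (by norm_num)).2 fun i => ?_
    have h := abs_le.1 (hcoef _ hx i)
    have e : W.repr (x + a - v 0) i = W.repr x i + 1 / 4 := by
      rw [← hWa i]; simp [add_sub_assoc]
    rw [e] at h
    rw [Real.norm_eq_abs, hTa, abs_le]
    constructor <;> linarith [h.1, h.2]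

end

end Vale.Agent.P243.Gap
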