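import Vale.Agent.P243.Gap.Fiber
import Vale.Agent.P243.Gap.Normalize

/-!
The relative base area of a cylinder covering exceeds one third by an absolute amount.
-/

namespace Vale.Agent.P243.Gap

open MeasureTheory Set
open scoped ENNReal InnerProductSpace

noncomputable section

namespace Body

variable (S : Body)

theorem no_cheap_cover {m : ℕ} (u : Fin m → R3) (hu : ∀ i, ‖u i‖ = 1) (B : Fin m → Set R3)
    (hB : ∀ i, MeasurableSet (B i)) (hBp : ∀ i, ∀ b ∈ B i, ⟪u i, b⟫_ℝ = 0)
    (hcov : S.K ⊆ ⋃ i, cylinder (u i) (B i)) (hfin : ∀ i, planeArea (u i) (B i) ≠ ⊤) :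
    1 / 3 + 1 / 10 ^ 85 ≤
      ∑ i, (planeArea (u i) (B i)).toReal / (planeArea (u i) (planeProj (u i) '' S.K)).toReal := by
  choose hA good bad hbad hgb hup hlow using fun i =>
    S.cylinder_estimate (hu i) (hB i) (hBp i) (hfin i)
  set U := S.kinkSet (tc / 16) (90 * tc) with hU
  set V := volume.real S.K with hV
  set A := fun i => (planeArea (u i) (planeProj (u i) '' S.K)).toReal with hAdef
  set b := fun i => (planeArea (u i) (B i)).toReal / A i with hb
  set q := fun i => bad i / A i with hq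
  show _ ≤ ∑ i, b i
  by_contra hlt
  rw [not_le] at hlt
  have hV0 : 0 < V := lt_of_lt_of_le (mul_pos S.distortion_pos (by norm_num)) S.real_K_ge
  have hUK : U ⊆ S.K := S.kinkSet_subset _ _
  have hKf : volume S.K ≠ ⊤ := S.cpt.measure_lt_top.ne
  have hf : ∀ T ⊆ S.K, volume T ≠ ⊤ := fun T hT => ne_top_of_le_ne_top hKf (measure_mono hT)
  have hcup : ∀ i, volume.real (cylinder (u i) (B i) ∩ S.K) ≤ 3 * V * (b i - eta * q i) := by
    intro i
    have h := (le_div_iff₀ (hA i)).2 (hup i)
    refine h.trans (le_of_eq ?_)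
    simp only [hb, hq, hAdef]
    field_simp
  have hclow : ∀ i, (b i - q i) * (tc / 480) * V ≤ volume.real (cylinder (u i) (B i) ∩ U) := by
    intro i
    have hg : b i - q i = good i / A i := by
      simp only [hb, hq, ← sub_div, ← hgb i, add_sub_cancel_right]
    rw [hg, div_mul_eq_mul_div, div_mul_eq_mul_div, div_le_iff₀ (hA i), mul_comm _ (A i)]
    exact hlow i
  have hsplit : ∀ i, volume.real (cylinder (u i) (B i) ∩ U) +
      volume.real (cylinder (u i) (B i) ∩ (S.K \ U)) = volume.real (cylinder (u i) (B i) ∩ S.K) := by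
    intro i
    have h := measureReal_inter_add_sdiff (μ := volume) (s := cylinder (u i) (B i) ∩ S.K)
      (S.measurableSet_kinkSet (tc / 16) (90 * tc)) (hf _ inter_subset_right)
    rw [inter_assoc, inter_eq_right.2 hUK, inter_sdiff_assoc] at h
    exact h
  have hcover : V ≤ volume.real U + ∑ i, volume.real (cylinder (u i) (B i) ∩ (S.K \ U)) := by
    have hsub : S.K ⊆ U ∪ ⋃ i, cylinder (u i) (B i) ∩ (S.K \ U) := by
      intro x hx
      by_cases hxU : x ∈ U
      · exact Or.inl hxU
      · obtain ⟨i, hi⟩ := mem_iUnion.1 (hcov hx)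
        exact Or.inr (mem_iUnion.2 ⟨i, hi, hx, hxU⟩)
    have hfu : volume (U ∪ ⋃ i, cylinder (u i) (B i) ∩ (S.K \ U)) ≠ ⊤ :=
      hf _ (union_subset hUK (iUnion_subset fun i => inter_subset_right.trans sdiff_subset))
    refine ((measureReal_mono hsub hfu).trans (measureReal_union_le _ _)).trans ?_
    exact add_le_add_right (measureReal_iUnion_fintype_le _) _
  have hUv := S.volume_kinkSet (a := 90 * tc) (r := tc / 16)
    (by norm_num [tc]) (by norm_num [tc]) (by norm_num [tc])
  rw [← hU, ← hV] at hUv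
  set Sb := ∑ i, b i with hSb
  set Sq := ∑ i, q i with hSq
  have s1 : ∑ i, volume.real (cylinder (u i) (B i) ∩ S.K) ≤ 3 * V * (Sb - eta * Sq) := by
    refine (Finset.sum_le_sum fun i _ => hcup i).trans (le_of_eq ?_)
    rw [← Finset.mul_sum, Finset.sum_sub_distrib, ← Finset.mul_sum]
  have s2 : (Sb - Sq) * (tc / 480) * V ≤ ∑ i, volume.real (cylinder (u i) (B i) ∩ U) := by
    refine le_trans (le_of_eq ?_) (Finset.sum_le_sum fun i _ => hclow i)
    rw [← Finset.sum_mul, ← Finset.sum_mul, Finset.sum_sub_distrib]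
  have s3 : ∑ i, volume.real (cylinder (u i) (B i) ∩ S.K) =
      ∑ i, volume.real (cylinder (u i) (B i) ∩ U) +
      ∑ i, volume.real (cylinder (u i) (B i) ∩ (S.K \ U)) := by
    rw [← Finset.sum_add_distrib]
    exact Finset.sum_congr rfl fun i _ => (hsplit i).symm
  have hu0 : volume.real U ≤ ∑ i, volume.real (cylinder (u i) (B i) ∩ U) := by
    have hsub : U ⊆ ⋃ i, cylinder (u i) (B i) ∩ U := fun x hx => by
      obtain ⟨i, hi⟩ := mem_iUnion.1 (hcov (hUK hx))
      exact mem_iUnion.2 ⟨i, hi, hx⟩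
    exact (measureReal_mono hsub (hf _ (iUnion_subset fun i => inter_subset_right.trans hUK))).trans
      (measureReal_iUnion_fintype_le _)
  have hq0 : 0 ≤ Sq := Finset.sum_nonneg fun i _ => div_nonneg (hbad i) (hA i).le
  have k1 : 1 ≤ 3 * (Sb - eta * Sq) := by
    have : V * 1 ≤ V * (3 * (Sb - eta * Sq)) := by linarith
    exact le_of_mul_le_mul_left this hV0
  have k2 : (Sb - Sq) * (tc / 480) + 1 ≤ 3 * (Sb - eta * Sq) + 40000000 * (tc / 16) * (90 * tc) := by
    have : V * ((Sb - Sq) * (tc / 480) + 1) ≤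
        V * (3 * (Sb - eta * Sq) + 40000000 * (tc / 16) * (90 * tc)) := by
      have := measureReal_nonneg (μ := volume) (s := U)
      linarith
    exact le_of_mul_le_mul_left this hV0
  simp only [eta, tc] at k1 k2
  nlinarith

end Body

theorem planeArea_translate (u p : R3) (hp : ⟪u, p⟫_ℝ = 0) (S : Set R3) :
    planeArea u ((fun y => y + p) ⁻¹' S) = planeArea u S := by
  unfold planeArea
  conv_rhs => rw [← measure_preimage_add_right volume p]
  congr 1
  ext x
  simp [planeProj, inner_add_right, hp, sub_add_eq_add_sub]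

theorem inner_planeProj {u : R3} (hu : ‖u‖ = 1) (a : R3) : ⟪u, planeProj u a⟫_ℝ = 0 := by
  simp [planeProj, inner_sub_right, real_inner_smul_right, hu]

/-- The relative area of every finite cylinder covering is at least `1/3 + 10^(-85)`. -/
theorem relative_gap (m : ℕ) (K : Set R3) (hK : Convex ℝ K) (hKc : IsCompact K)
    (hKi : (interior K).Nonempty) (u : Fin m → R3) (hu : ∀ i, ‖u i‖ = 1) (B : Fin m → Set R3)
    (hB : ∀ i, MeasurableSet (B i)) (hBp : ∀ i, ∀ b ∈ B i, ⟪u i, b⟫_ℝ = 0)
    (hcov : K ⊆ ⋃ i, cylinder (u i) (B i)) :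
    ENNReal.ofReal (1 / 3 + 1 / 10 ^ 85) ≤
      ∑ i, planeArea (u i) (B i) / planeArea (u i) (planeProj (u i) '' K) := by
  obtain ⟨a, S, hS⟩ := exists_normal hK hKc hKi
  set B' := fun i => (fun y => y + planeProj (u i) a) ⁻¹' B i with hB'
  have hadd : ∀ i x, planeProj (u i) (x + a) = planeProj (u i) x + planeProj (u i) a := fun i x => by
    simp only [planeProj, inner_add_right]; module
  have hB'p : ∀ i, ∀ b ∈ B' i, ⟪u i, b⟫_ℝ = 0 := fun i b hb => by
    have h := hBp i _ hb
    rwa [inner_add_right, inner_planeProj (hu i), add_zero] at h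
  have hB'm : ∀ i, MeasurableSet (B' i) := fun i => (measurable_add_const _) (hB i)
  have hcov' : S.K ⊆ ⋃ i, cylinder (u i) (B' i) := fun x hx => by
    rw [hS] at hx
    obtain ⟨i, hi⟩ := mem_iUnion.1 (hcov hx)
    rw [cylinder_eq (hu i) (hBp i), mem_preimage, hadd] at hi
    refine mem_iUnion.2 ⟨i, ?_⟩
    rw [cylinder_eq (hu i) (hB'p i)]
    exact hi
  have hproj : ∀ i, planeArea (u i) (planeProj (u i) '' K) =
      planeArea (u i) (planeProj (u i) '' S.K) := fun i => by
    rw [← planeArea_translate (u i) _ (inner_planeProj (hu i) a) (planeProj (u i) '' K), hS]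
    congr 1
    ext y
    constructor
    · rintro ⟨x, hx, he⟩
      refine ⟨x - a, by simpa using hx, ?_⟩
      have h := hadd i (x - a)
      rw [sub_add_cancel, he] at h
      exact (add_right_cancel h).symm
    · rintro ⟨x, hx, rfl⟩
      exact ⟨x + a, hx, hadd i x⟩
  have hBe : ∀ i, planeArea (u i) (B' i) = planeArea (u i) (B i) := fun i =>
    planeArea_translate (u i) _ (inner_planeProj (hu i) a) (B i)
  simp only [hproj, ← hBe]
  by_cases hfin : ∀ i, planeArea (u i) (B' i) ≠ ⊤
  · have h := S.no_cheap_cover u hu B' hB'm hB'p hcov' hfin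
    refine (ENNReal.ofReal_le_ofReal h).trans (le_of_eq ?_)
    rw [ENNReal.ofReal_sum_of_nonneg fun i _ => div_nonneg ENNReal.toReal_nonneg ENNReal.toReal_nonneg]
    refine Finset.sum_congr rfl fun i _ => ?_
    have hp := (S.cylinder_estimate (hu i) (hB'm i) (hB'p i) (hfin i)).1
    have hPf := (ENNReal.toReal_pos_iff.1 hp).2
    rw [ENNReal.ofReal_div_of_pos hp, ENNReal.ofReal_toReal (hfin i), ENNReal.ofReal_toReal hPf.ne]
  · simp only [not_forall, ne_eq, not_not] at hfin
    obtain ⟨i, hi⟩ := hfin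
    obtain ⟨c, hc⟩ := exists_frame_one (u i) (hu i)
    have hPf : planeArea (u i) (planeProj (u i) '' S.K) ≠ ⊤ := by
      rw [← hc, planeArea_eq c ((S.cpt.image (continuous_planeProj _)).isClosed.measurableSet)]
      refine ne_top_of_le_ne_top (S.isCompact_shadow c).measure_lt_top.ne (measure_mono ?_)
      rintro p ⟨x, hx, he⟩
      refine ⟨x, hx, ?_⟩
      have h2 := iota_pi2 c x
      have h1 : planeProj (c 1) x = iota c (pi2 c x) := by rw [planeProj, sub_eq_iff_eq_add, h2]
      rw [h1] at he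
      have := congrArg (pi2 c) (congrArg (fun z => z + (0:ℝ) • c 1) he)
      simpa only [pi2_iota] using this
    refine le_trans ?_ (Finset.single_le_sum (fun j _ => zero_le) (Finset.mem_univ i))
    simp [hi, ENNReal.top_div, hPf]

/-- The absolute form: more than a third of the smallest shadow. -/
theorem area_gap (m : ℕ) (K : Set R3) (hK : Convex ℝ K) (hKc : IsCompact K)
    (hKi : (interior K).Nonempty) (u : Fin m → R3) (hu : ∀ i, ‖u i‖ = 1) (B : Fin m → Set R3)
    (hB : ∀ i, MeasurableSet (B i)) (hBp : ∀ i, ∀ b ∈ B i, ⟪u i, b⟫_ℝ = 0)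
    (hcov : K ⊆ ⋃ i, cylinder (u i) (B i)) :
    ENNReal.ofReal (1 / 3 + 1 / 10 ^ 85) * minProjArea K ≤ ∑ i, planeArea (u i) (B i) := by
  refine (mul_le_mul_left (relative_gap m K hK hKc hKi u hu B hB hBp hcov) _).trans ?_
  rw [Finset.sum_mul]
  refine Finset.sum_le_sum fun i _ => ?_
  have hle : minProjArea K ≤ planeArea (u i) (planeProj (u i) '' K) := iInf₂_le (u i) (hu i)
  refine (mul_le_mul_right hle _).trans ?_
  exact ENNReal.mul_le_of_le_div le_rfl

end

end Vale.Agent.P243.Gap
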